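import Vale.Agent.P146.H758.Sand
import Vale.Agent.P146.H479.Merge
import Vale.Agent.P146.U.AP3

/-!
# P146: removal of a small field: the pure law and general laws (helper97)

`FRem β D n`: the statement of `field_rem` (helper379) at `n`. From it:
* `gen_rem`: any law with the first exponent `x`, the others in `[x, 2x]`, first share
  `≥ 1 - A x²`, and a field on the first level;
* `pure_rem`: the pure law `Pu`;
* `pure_C`, `pure_c`, `gen_c`: the constant form and the small form.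
-/

open MeasureTheory ProbabilityTheory

namespace Vale.Agent.P146.H97

open Vale.Agent.P157 Vale.Agent.P157.Lv Vale.Agent.P157.Lv.Sy
open Vale.Agent.P146.H425 Vale.Agent.P146.H325 Vale.Agent.P146.R1 Vale.Agent.P146.U
open Vale.Agent.P146.H93 Vale.Agent.P146.H479
open Vale.Agent.P146.H66 (cm em_cm)
open Vale.Agent.P146.H758 (Pu Pu_zero tv em_mono)

set_option linter.unusedSectionVars false

variable {n K : ℕ} {m b w : ℕ → ℝ} {β x A V D : ℝ}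

/-- **Removal of a field on the first level**, the text of `cgen` (helper379). -/
def FRem (β D : ℝ) (n : ℕ) : Prop := ∀ (x A : ℝ) (K : ℕ) (m b w c : ℕ → ℝ),
  (n : ℝ) ^ (-(1 / 6) : ℝ) ≤ x → x ≤ (n : ℝ) ^ (-(21 / 200) : ℝ) → 4 ≤ A → A * x ^ 2 ≤ 1 / 2 →
  Em (K + 2) m → m 1 = x → (∀ j, 2 ≤ j → j ≤ K + 2 → x ≤ m j ∧ m j ≤ 2 * x) →
  (∀ j, 1 ≤ j → j ≤ K + 2 → b j = β / √n * c j) → c 1 = √(1 - A * x ^ 2) →
  ∑ j ∈ Finset.Ico 1 (K + 2), c (j + 1) ^ 2 = A * x ^ 2 → A * x ^ 2 ≤ 2 * c 2 ^ 2 →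
  (∀ j, 2 ≤ j → j ≤ K + 2 → w j = 0) → w 1 ^ 2 ≤ x → 4 * x ^ 2 ≤ β →
  (skS n (K + 2) m b w).fe ≤ (skS n (K + 2) m b fun _ => 0).fe + n * w 1 ^ 2 / (2 * β) +
    D * (n * x ^ 5) * (A ^ (-(1 / 1000) : ℝ) + A * (w 1 ^ 2 / x ^ 3) + 1 / (n * x ^ 6))

/-- insertion of a second copy of the first exponent -/
def m2 (m : ℕ → ℝ) (j : ℕ) : ℝ := if j ≤ 1 then m j else m (j - 1)

lemma em_m2 (hK : 1 ≤ K) (hm : Em K m) : Em (K + 1) (m2 m) where
  m0 := by simp [m2, hm.m0]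
  mK := by
    unfold m2
    rw [if_neg (by omega), show K + 1 + 1 - 1 = K + 1 by omega, hm.mK]
  mono := by
    intro l hl
    unfold m2
    rcases Nat.lt_or_ge l 2 with h | h
    · interval_cases l
      · simpa using hm.mono 0 (by omega)
      · simp
    · rw [if_neg (by omega), if_neg (by omega), show l + 1 - 1 = (l - 1) + 1 by omega]
      exact hm.mono (l - 1) (by omega)
  pos := by simpa [m2] using hm.pos

/-- the amplitudes after the splitting of the first level -/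
noncomputable def c2 (n : ℕ) (β a : ℝ) (b : ℕ → ℝ) (j : ℕ) : ℝ :=
  if j ≤ 1 then √(1 - a) else if j = 2 then √n / β * √(b 1 ^ 2 - β ^ 2 / n * (1 - a))
  else √n / β * b (j - 1)

/-- **Any law with a field on the first level.** -/
theorem gen_rem (hF : FRem β D n) (hβ : 0 < β) (hn : 0 < n)
    (hx0 : (n : ℝ) ^ (-(1 / 6) : ℝ) ≤ x) (hx1 : x ≤ (n : ℝ) ^ (-(21 / 200) : ℝ)) (hA : 4 ≤ A)
    (hAx : A * x ^ 2 ≤ 1 / 2) (hxβ : 4 * x ^ 2 ≤ β) (hK : 1 ≤ K) (hm : Em K m) (h1 : m 1 = x)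
    (h2 : m K ≤ 2 * x) (hb1 : β ^ 2 / n * (1 - A / 2 * x ^ 2) ≤ b 1 ^ 2)
    (hb : tv K b = β ^ 2 / n) (hw : ∀ j, 2 ≤ j → j ≤ K → w j = 0) (hw1 : w 1 ^ 2 ≤ x) :
    (skS n K m b w).fe ≤ (skS n K m b fun _ => 0).fe + n * w 1 ^ 2 / (2 * β) +
      D * (n * x ^ 5) * (A ^ (-(1 / 1000) : ℝ) + A * (w 1 ^ 2 / x ^ 3) + 1 / (n * x ^ 6)) := by
  have hn' : (0 : ℝ) < n := Nat.cast_pos.2 hn
  have hsn : 0 < √(n : ℝ) := Real.sqrt_pos.2 hn'
  have hsn2 : √(n : ℝ) ^ 2 = n := Real.sq_sqrt hn'.le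
  have hbn : 0 < β ^ 2 / n := by positivity
  have hb1' : β ^ 2 / n * (1 - A * x ^ 2) ≤ b 1 ^ 2 :=
    le_trans (mul_le_mul_of_nonneg_left (by nlinarith [sq_nonneg x]) hbn.le) hb1
  -- the split law
  have hbc1 : (β / √n * c2 n β (A * x ^ 2) b 1) ^ 2 + (β / √n * c2 n β (A * x ^ 2) b 2) ^ 2 =
      b 1 ^ 2 := by
    have e1 : c2 n β (A * x ^ 2) b 1 = √(1 - A * x ^ 2) := by simp [c2]
    have e2 : c2 n β (A * x ^ 2) b 2 =
        √n / β * √(b 1 ^ 2 - β ^ 2 / n * (1 - A * x ^ 2)) := by simp [c2]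
    rw [e1, e2, mul_pow, mul_pow, mul_pow, Real.sq_sqrt (by linarith), Real.sq_sqrt (by linarith),
      div_pow, div_pow, hsn2]
    field_simp
    ring
  have hbc : ∀ j, 1 < j → b j = β / √n * c2 n β (A * x ^ 2) b (j + 1) := by
    intro j hj
    unfold c2
    rw [if_neg (by omega), if_neg (by omega), show j + 1 - 1 = j by omega]
    field_simp
  have hcl : ∀ u : ℕ → ℝ, (∀ j, 2 ≤ j → u j = 0) → ClS n 1 (m2 m)
      (fun j => β / √n * c2 n β (A * x ^ 2) b j) u m b u := by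
    intro u hu
    refine ClS.merge le_rfl (fun j hj1 hj2 => absurd hj2 (by omega)) (fun j hj => ⟨?_, ?_, ?_⟩)
      ?_ ?_ ?_ hbc1 ?_
    · simp only [m2]
      rw [if_neg (by omega), show j + 1 - 1 = j by omega]
    · exact hbc j hj
    · rw [hu j (by omega), hu (j + 1) (by omega)]
    · simpa [m2] using hm.pos
    · simp [m2]
    · simp [m2]
    · rw [hu (1 + 1) (by omega)]
      ring
  have hem := em_m2 hK hm
  -- the field
  obtain ⟨w', hw'⟩ : ∃ w' : ℕ → ℝ, w' = fun j => if j = 1 then w 1 else 0 := ⟨_, rfl⟩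
  have hw'1 : w' 1 = w 1 := by simp [hw']
  have hw'2 : ∀ j, 2 ≤ j → w' j = 0 := fun j hj => by
    rw [hw']
    exact if_neg (by omega)
  have hlaw : skS n K m b w = skS n K m b w' := by
    refine sk_congr (fun _ _ _ => rfl) rfl rfl (fun _ _ => rfl) (fun _ _ _ => rfl)
      fun j hj1 hj2 => ?_
    rcases Nat.lt_or_ge j 2 with h | h
    · have : j = 1 := by omega
      rw [this, hw'1]
    · rw [hw j h hj2, hw'2 j h]
  have ec2 : c2 n β (A * x ^ 2) b 2 ^ 2 =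
      n / β ^ 2 * (b 1 ^ 2 - β ^ 2 / n * (1 - A * x ^ 2)) := by
    have e2 : c2 n β (A * x ^ 2) b 2 =
        √n / β * √(b 1 ^ 2 - β ^ 2 / n * (1 - A * x ^ 2)) := by simp [c2]
    rw [e2, mul_pow, div_pow, hsn2, Real.sq_sqrt (by linarith)]
  have hsum0 : ∑ j ∈ Finset.range K, c2 n β (A * x ^ 2) b (j + 2) ^ 2 = A * x ^ 2 := by
    obtain ⟨K', rfl⟩ : ∃ K', K = K' + 1 := ⟨K - 1, by omega⟩
    rw [Finset.sum_range_succ']
    have e3 : ∀ j, c2 n β (A * x ^ 2) b (j + 1 + 2) ^ 2 = n / β ^ 2 * b (j + 1 + 1) ^ 2 := by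
      intro j
      unfold c2
      rw [if_neg (by omega), if_neg (by omega), show j + 1 + 2 - 1 = j + 1 + 1 by omega, mul_pow,
        div_pow, hsn2]
    rw [zero_add, ec2, Finset.sum_congr rfl fun j _ => e3 j, ← Finset.mul_sum]
    unfold tv at hb
    rw [Finset.sum_range_succ'] at hb
    have e4 : ∑ j ∈ Finset.range K', b (j + 1 + 1) ^ 2 = β ^ 2 / n - b (0 + 1) ^ 2 := by
      linarith
    rw [e4, zero_add]
    field_simp
    ring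
  have hsum : ∀ K', K = K' + 1 → ∑ j ∈ Finset.Ico 1 (K' + 2),
      c2 n β (A * x ^ 2) b (j + 1) ^ 2 = A * x ^ 2 := by
    intro K' hK'
    have h := hsum0
    rw [hK', Finset.range_eq_Ico] at h
    have h' := Finset.sum_Ico_add' (fun j => c2 n β (A * x ^ 2) b (j + 1) ^ 2) 0 (K' + 1) 1
    exact h'.symm.trans h
  have hc22 : A * x ^ 2 ≤ 2 * c2 n β (A * x ^ 2) b 2 ^ 2 := by
    rw [ec2]
    have h3 : β ^ 2 / n * (A / 2 * x ^ 2) ≤ b 1 ^ 2 - β ^ 2 / n * (1 - A * x ^ 2) := by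
      have : β ^ 2 / n * (1 - A / 2 * x ^ 2) - β ^ 2 / n * (1 - A * x ^ 2) =
        β ^ 2 / n * (A / 2 * x ^ 2) := by ring
      linarith
    have h4 := mul_le_mul_of_nonneg_left h3 (by positivity : 0 ≤ (n : ℝ) / β ^ 2)
    have h5 : (n : ℝ) / β ^ 2 * (β ^ 2 / n * (A / 2 * x ^ 2)) = A / 2 * x ^ 2 := by
      field_simp
    linarith
  obtain ⟨K', rfl⟩ : ∃ K', K = K' + 1 := ⟨K - 1, by omega⟩
  have hmj : ∀ j, 2 ≤ j → j ≤ K' + 2 → x ≤ m2 m j ∧ m2 m j ≤ 2 * x := by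
    intro j hj1 hj2
    unfold m2
    rw [if_neg (by omega)]
    constructor
    · rw [← h1]
      exact em_mono hm (by omega) (by omega)
    · exact (em_mono hm (by omega) (by omega : K' + 1 ≤ K' + 1 + 1)).trans h2
  have key1 := hF x A K' (m2 m) (fun j => β / √n * c2 n β (A * x ^ 2) b j) w'
    (c2 n β (A * x ^ 2) b) hx0 hx1 hA hAx hem (by simp [m2, h1]) hmj (fun _ _ _ => rfl)
    (by simp [c2]) (hsum K' rfl) hc22 (fun j hj _ => hw'2 j hj) (by rw [hw'1]; exact hw1) hxβ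
  rw [fe_cl (hcl w' hw'2) hem hm hK, fe_cl (hcl (fun _ => 0) fun _ _ => rfl) hem hm hK,
    hw'1] at key1
  rw [hlaw]
  exact key1

lemma tv_one (n : ℕ) (β : ℝ) : tv 1 (fun _ => β / √(n : ℝ)) = β ^ 2 / n := by
  simp only [tv, Finset.range_one, Finset.sum_singleton]
  rw [div_pow, Real.sq_sqrt (Nat.cast_nonneg n)]

lemma cm_one (x : ℝ) : cm 1 x 1 = x := by
  unfold cm
  rw [if_neg (by omega), if_pos (by omega)]

lemma fe_P1 (hx : 0 < x) (hx1 : x ≤ 1) :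
    (skS n 1 (cm 1 x) (fun _ => β / √n) fun _ => 0).fe = P1 n β x := by
  have h1 := Pu_zero (n := n) (β := β) hx hx1
  unfold Pu at h1
  rw [Real.sqrt_zero] at h1
  exact h1

lemma rpow_le_one' (hn : 0 < n) {a : ℝ} (ha : 0 ≤ a) (hx1 : x ≤ (n : ℝ) ^ (-a)) : x ≤ 1 :=
  hx1.trans (Real.rpow_le_one_of_one_le_of_nonpos (by exact_mod_cast hn) (by linarith))

/-- **The pure law.** -/
theorem pure_rem (hF : FRem β D n) (hβ : 0 < β) (hn : 0 < n)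
    (hx0 : (n : ℝ) ^ (-(1 / 6) : ℝ) ≤ x) (hx1 : x ≤ (n : ℝ) ^ (-(21 / 200) : ℝ)) (hA : 4 ≤ A)
    (hAx : A * x ^ 2 ≤ 1 / 2) (hxβ : 4 * x ^ 2 ≤ β) (hV0 : 0 ≤ V) (hV : V ≤ x) :
    Pu n β x V ≤ P1 n β x + n / (2 * β) * V +
      D * (n * x ^ 5) * (A ^ (-(1 / 1000) : ℝ) + A * (V / x ^ 3) + 1 / (n * x ^ 6)) := by
  have hn' : (0 : ℝ) < n := Nat.cast_pos.2 hn
  have hx : 0 < x := lt_of_lt_of_le (by positivity) hx0
  have hx1' : x ≤ 1 := rpow_le_one' hn (by norm_num) hx1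
  have h := gen_rem (K := 1) (m := cm 1 x) (b := fun _ => β / √n) (w := fun _ => √V) hF hβ hn hx0
    hx1 hA hAx hxβ le_rfl (em_cm le_rfl hx hx1') (cm_one x) (by rw [cm_one]; linarith)
    (by
      rw [div_pow, Real.sq_sqrt hn'.le]
      have h1 : 0 ≤ β ^ 2 / n * (A / 2 * x ^ 2) := by positivity
      linarith) (tv_one n β) (fun j h1 h2 => absurd h1 (by omega))
    (by rw [Real.sq_sqrt hV0]; exact hV)
  rw [fe_P1 hx hx1', Real.sq_sqrt hV0,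
    show (n : ℝ) * V / (2 * β) = n / (2 * β) * V by field_simp] at h
  exact h

lemma rA_le {A : ℝ} (hA : 1 ≤ A) : A ^ (-(1 / 1000) : ℝ) ≤ 1 :=
  Real.rpow_le_one_of_one_le_of_nonpos hA (by norm_num)

lemma nx6 (hn : 0 < n) (hx0 : (n : ℝ) ^ (-(1 / 6) : ℝ) ≤ x) : 1 ≤ n * x ^ 6 := by
  have hn' : (0 : ℝ) < n := Nat.cast_pos.2 hn
  have h1 : ((n : ℝ) ^ (-(1 / 6) : ℝ)) ^ 6 ≤ x ^ 6 := pow_le_pow_left₀ (by positivity) hx0 6
  have h2 : ((n : ℝ) ^ (-(1 / 6) : ℝ)) ^ 6 = (n : ℝ)⁻¹ := by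
    rw [← Real.rpow_natCast, ← Real.rpow_mul hn'.le, ← Real.rpow_neg_one]
    norm_num
  rw [h2] at h1
  have h3 := mul_le_mul_of_nonneg_left h1 hn'.le
  rwa [mul_inv_cancel₀ hn'.ne'] at h3

/-- `n x⁶ ≥ K⁶` from `x ≥ K n ^ (-1/6)` -/
lemma nxK {K0 : ℝ} (hK : 0 ≤ K0) (hn : 0 < n) (hx0 : K0 * (n : ℝ) ^ (-(1 / 6) : ℝ) ≤ x) :
    K0 ^ 6 ≤ n * x ^ 6 := by
  have hn' : (0 : ℝ) < n := Nat.cast_pos.2 hn
  have h1 := pow_le_pow_left₀ (by positivity) hx0 6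
  have h2 : ((n : ℝ) ^ (-(1 / 6) : ℝ)) ^ 6 = (n : ℝ)⁻¹ := by
    rw [← Real.rpow_natCast, ← Real.rpow_mul hn'.le, ← Real.rpow_neg_one]
    norm_num
  rw [mul_pow, h2] at h1
  have h3 := mul_le_mul_of_nonneg_left h1 hn'.le
  have h4 : (n : ℝ) * (K0 ^ 6 * (n : ℝ)⁻¹) = K0 ^ 6 := by
    field_simp
  rwa [h4] at h3

/-- the exponents of the range are small -/
lemma ev_small {c : ℝ} (hc : 0 < c) :
    ∃ n0 : ℕ, 0 < n0 ∧ ∀ n : ℕ, n0 ≤ n → ∀ x : ℝ, 0 ≤ x → x ≤ (n : ℝ) ^ (-(21 / 200) : ℝ) →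
      x ^ 2 ≤ c := by
  have h1 : Filter.Tendsto (fun n : ℕ => (n : ℝ) ^ (-(21 / 200) : ℝ)) Filter.atTop (nhds 0) :=
    (tendsto_rpow_neg_atTop (by norm_num)).comp tendsto_natCast_atTop_atTop
  have h2 := (h1.eventually_le_const (Real.sqrt_pos.2 hc)).and (Filter.eventually_gt_atTop 0)
  obtain ⟨n0, h3⟩ := Filter.eventually_atTop.1 h2
  refine ⟨n0, (h3 n0 le_rfl).2, ?_⟩
  intro n hn x hx hx1
  have h4 : x ≤ √c := hx1.trans (h3 n hn).1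
  calc x ^ 2 ≤ √c ^ 2 := pow_le_pow_left₀ hx h4 2
    _ = c := Real.sq_sqrt hc.le

/-- the output of `cgen` -/
def CG (β : ℝ) : Prop := ∃ D : ℝ, ∃ n0 : ℕ, 0 < D ∧ ∀ n : ℕ, n0 ≤ n → FRem β D n

/-- **The constant form, pure law** (the input `hHi` of `box_Pu`). -/
theorem pure_C (hβ : 0 < β) (hG : CG β) :
    ∃ C : ℝ, ∃ n0 : ℕ, 0 < C ∧ ∀ n : ℕ, n0 ≤ n → ∀ x V : ℝ, (n : ℝ) ^ (-(1 / 6) : ℝ) ≤ x →
      x ≤ (n : ℝ) ^ (-(21 / 200) : ℝ) → 0 ≤ V → V ≤ 64 * x ^ 3 →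
      Pu n β x V ≤ P1 n β x + n / (2 * β) * V + C * (n * x ^ 5) := by
  obtain ⟨D, n1, hD, hF⟩ := hG
  obtain ⟨n2, hn2, h2⟩ := ev_small (c := min (1 / 64) (β / 4)) (by positivity)
  refine ⟨D * 258, max n1 n2, by positivity, ?_⟩
  intro n hn x V hx0 hx1 hV0 hV
  have hn1 : n1 ≤ n := (le_max_left _ _).trans hn
  have hn2' : n2 ≤ n := (le_max_right _ _).trans hn
  have hn0 : 0 < n := by omega
  have hn' : (0 : ℝ) < n := Nat.cast_pos.2 hn0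
  have hx : 0 < x := lt_of_lt_of_le (by positivity) hx0
  have hxx := h2 n hn2' x hx.le hx1
  have hxa : x ^ 2 ≤ 1 / 64 := hxx.trans (min_le_left _ _)
  have hxb : x ^ 2 ≤ β / 4 := hxx.trans (min_le_right _ _)
  have hVx : V ≤ x := by
    refine hV.trans ?_
    have : x ^ 3 = x ^ 2 * x := by ring
    rw [this]
    nlinarith
  have h := pure_rem (A := 4) (hF n hn1) hβ hn0 hx0 hx1 le_rfl (by linarith) (by linarith) hV0 hVx
  have h1 := rA_le (A := 4) (by norm_num)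
  have h3 : V / x ^ 3 ≤ 64 := by rwa [div_le_iff₀ (by positivity)]
  have h4 : 1 / (n * x ^ 6) ≤ 1 := by
    rw [div_le_iff₀ (by positivity), one_mul]
    exact nx6 hn0 hx0
  have h5 : D * (n * x ^ 5) * ((4 : ℝ) ^ (-(1 / 1000) : ℝ) + 4 * (V / x ^ 3) + 1 / (n * x ^ 6)) ≤
      D * (n * x ^ 5) * 258 := mul_le_mul_of_nonneg_left (by linarith) (by positivity)
  linarith

/-- **The constant form, any law**: fields `w 1 ² ≤ M x³`. -/
theorem gen_C (hβ : 0 < β) (hG : CG β) (S M : ℝ) (hM : 0 ≤ M) :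
    ∃ C : ℝ, ∃ n0 : ℕ, 0 < C ∧ ∀ n : ℕ, n0 ≤ n → ∀ (x : ℝ) (K : ℕ) (m b w : ℕ → ℝ),
      (n : ℝ) ^ (-(1 / 6) : ℝ) ≤ x → x ≤ (n : ℝ) ^ (-(21 / 200) : ℝ) → 1 ≤ K → Em K m →
      m 1 = x → m K ≤ 2 * x → β ^ 2 / n * (1 - S * x ^ 2) ≤ b 1 ^ 2 → tv K b = β ^ 2 / n →
      (∀ j, 2 ≤ j → j ≤ K → w j = 0) → w 1 ^ 2 ≤ M * x ^ 3 →
      (skS n K m b w).fe ≤ (skS n K m b fun _ => 0).fe + n / (2 * β) * w 1 ^ 2 +
        C * (n * x ^ 5) := by
  obtain ⟨D, n1, hD, hF⟩ := hG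
  obtain ⟨A, hA⟩ : ∃ A : ℝ, A = max 4 (2 * S) := ⟨_, rfl⟩
  have hA4 : 4 ≤ A := hA ▸ le_max_left _ _
  have hAS : 2 * S ≤ A := hA ▸ le_max_right _ _
  have hA0 : 0 < A := by linarith
  obtain ⟨n2, hn2, h2⟩ := ev_small (c := min (1 / (2 * A)) (min (β / 4) (1 / (M + 1))))
    (by positivity)
  refine ⟨D * (2 + A * M), max n1 n2, by positivity, ?_⟩
  intro n hn x K m b w hx0 hx1 hK hm hm1 hmK hb1 hb hw hw1
  have hn1 : n1 ≤ n := (le_max_left _ _).trans hn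
  have hn2' : n2 ≤ n := (le_max_right _ _).trans hn
  have hn0 : 0 < n := by omega
  have hn' : (0 : ℝ) < n := Nat.cast_pos.2 hn0
  have hx : 0 < x := lt_of_lt_of_le (by positivity) hx0
  have hxx := h2 n hn2' x hx.le hx1
  have hxa : x ^ 2 ≤ 1 / (2 * A) := hxx.trans (min_le_left _ _)
  have hxb : x ^ 2 ≤ β / 4 := hxx.trans ((min_le_right _ _).trans (min_le_left _ _))
  have hxc : x ^ 2 ≤ 1 / (M + 1) := hxx.trans ((min_le_right _ _).trans (min_le_right _ _))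
  have hAx : A * x ^ 2 ≤ 1 / 2 := by
    rw [le_div_iff₀ (by positivity)] at hxa
    linarith
  have hwx : w 1 ^ 2 ≤ x := by
    refine hw1.trans ?_
    rw [le_div_iff₀ (by positivity)] at hxc
    have e : x ^ 3 = x ^ 2 * x := by ring
    have h3 : M * x ^ 2 ≤ 1 := by nlinarith [sq_nonneg x]
    rw [e]
    nlinarith
  have h := gen_rem (K := K) (m := m) (b := b) (w := w) (hF n hn1) hβ hn0 hx0 hx1 hA4 hAx
    (by linarith) hK hm hm1 hmK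
    (le_trans (mul_le_mul_of_nonneg_left (by nlinarith [sq_nonneg x]) (by positivity)) hb1) hb hw
    hwx
  have h1 := rA_le (A := A) (by linarith)
  have h3 : w 1 ^ 2 / x ^ 3 ≤ M := by rwa [div_le_iff₀ (by positivity)]
  have h4 : 1 / (n * x ^ 6) ≤ 1 := by
    rw [div_le_iff₀ (by positivity), one_mul]
    exact nx6 hn0 hx0
  have h5 : D * (n * x ^ 5) * (A ^ (-(1 / 1000) : ℝ) + A * (w 1 ^ 2 / x ^ 3) + 1 / (n * x ^ 6)) ≤
      D * (n * x ^ 5) * (2 + A * M) := mul_le_mul_of_nonneg_left (by nlinarith) (by positivity)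
  have e : (n : ℝ) * w 1 ^ 2 / (2 * β) = n / (2 * β) * w 1 ^ 2 := by field_simp
  rw [e] at h
  linarith

/-- the constants of the small form -/
lemma small_A (D : ℝ) {c' : ℝ} (hc : 0 < c') (S : ℝ) :
    ∃ A, 4 ≤ A ∧ S ≤ A ∧ D * A ^ (-(1 / 1000) : ℝ) ≤ c' := by
  have h1 : Filter.Tendsto (fun A : ℝ => D * A ^ (-(1 / 1000) : ℝ)) Filter.atTop
      (nhds (D * 0)) := (tendsto_rpow_neg_atTop (by norm_num)).const_mul D
  rw [mul_zero] at h1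
  have h2 := (h1.eventually_le_const hc).and
    ((Filter.eventually_ge_atTop (4 : ℝ)).and (Filter.eventually_ge_atTop S))
  obtain ⟨A, h3, h4, h5⟩ := h2.exists
  exact ⟨A, h4, h5, h3⟩

/-- **The small form, any law.** -/
theorem gen_c (hβ : 0 < β) (hG : CG β) (S : ℝ) {c' : ℝ} (hc : 0 < c') :
    ∃ ε K0 : ℝ, ∃ n0 : ℕ, 0 < ε ∧ 1 ≤ K0 ∧ ∀ n : ℕ, n0 ≤ n → ∀ (x : ℝ) (K : ℕ)
      (m b w : ℕ → ℝ), K0 * (n : ℝ) ^ (-(1 / 6) : ℝ) ≤ x → x ≤ (n : ℝ) ^ (-(21 / 200) : ℝ) →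
      1 ≤ K → Em K m → m 1 = x → m K ≤ 2 * x → β ^ 2 / n * (1 - S * x ^ 2) ≤ b 1 ^ 2 →
      tv K b = β ^ 2 / n → (∀ j, 2 ≤ j → j ≤ K → w j = 0) → w 1 ^ 2 ≤ ε * x ^ 3 →
      (skS n K m b w).fe ≤ (skS n K m b fun _ => 0).fe + n / (2 * β) * w 1 ^ 2 +
        c' * (n * x ^ 5) := by
  obtain ⟨D, n1, hD, hF⟩ := hG
  obtain ⟨A, hA4, hAS, hA2⟩ := small_A D (by positivity : 0 < c' / 3) (2 * S)
  have hA0 : 0 < A := by linarith
  obtain ⟨n2, hn2, h2⟩ := ev_small (c := min (1 / (2 * A)) (min (β / 4) 1)) (by positivity)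
  refine ⟨min 1 (c' / (3 * D * A)), max 1 (3 * D / c'), max n1 n2, by positivity,
    le_max_left _ _, ?_⟩
  intro n hn x K m b w hx0 hx1 hK hm hm1 hmK hb1 hb hw hw1
  have hn1 : n1 ≤ n := (le_max_left _ _).trans hn
  have hn2' : n2 ≤ n := (le_max_right _ _).trans hn
  have hn0 : 0 < n := by omega
  have hn' : (0 : ℝ) < n := Nat.cast_pos.2 hn0
  have hK1 : 1 ≤ max 1 (3 * D / c') := le_max_left _ _
  have hx00 : (n : ℝ) ^ (-(1 / 6) : ℝ) ≤ x := by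
    refine le_trans ?_ hx0
    have : 0 < (n : ℝ) ^ (-(1 / 6) : ℝ) := by positivity
    nlinarith
  have hx : 0 < x := lt_of_lt_of_le (by positivity) hx00
  have hx3 : 0 < x ^ 3 := by positivity
  have hxx := h2 n hn2' x hx.le hx1
  have hxa : x ^ 2 ≤ 1 / (2 * A) := hxx.trans (min_le_left _ _)
  have hxb : x ^ 2 ≤ β / 4 := hxx.trans ((min_le_right _ _).trans (min_le_left _ _))
  have hxc : x ^ 2 ≤ 1 := hxx.trans ((min_le_right _ _).trans (min_le_right _ _))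
  have hAx : A * x ^ 2 ≤ 1 / 2 := by
    rw [le_div_iff₀ (by positivity)] at hxa
    linarith
  have hwx : w 1 ^ 2 ≤ x := by
    refine hw1.trans ((mul_le_mul_of_nonneg_right (min_le_left _ _) hx3.le).trans ?_)
    have e : x ^ 3 = x ^ 2 * x := by ring
    rw [e]
    nlinarith
  have hwe : w 1 ^ 2 / x ^ 3 ≤ c' / (3 * D * A) := by
    rw [div_le_iff₀ hx3]
    exact hw1.trans (mul_le_mul_of_nonneg_right (min_le_right _ _) hx3.le)
  have h := gen_rem (K := K) (m := m) (b := b) (w := w) (hF n hn1) hβ hn0 hx00 hx1 hA4 hAx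
    (by linarith) hK hm hm1 hmK
    (le_trans (mul_le_mul_of_nonneg_left (by nlinarith [sq_nonneg x]) (by positivity)) hb1) hb hw
    hwx
  have e1 : D * (A * (w 1 ^ 2 / x ^ 3)) ≤ c' / 3 := by
    have h3 : D * (A * (w 1 ^ 2 / x ^ 3)) ≤ D * (A * (c' / (3 * D * A))) :=
      mul_le_mul_of_nonneg_left (mul_le_mul_of_nonneg_left hwe hA0.le) hD.le
    refine h3.trans (le_of_eq ?_)
    field_simp
  have e2 : D * (1 / (n * x ^ 6)) ≤ c' / 3 := by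
    have h3 : 0 < n * x ^ 6 := by positivity
    have h4 := nxK (by linarith : 0 ≤ max 1 (3 * D / c')) hn0 hx0
    have h5 : max 1 (3 * D / c') ≤ max 1 (3 * D / c') ^ 6 := le_self_pow₀ hK1 (by norm_num)
    have h6 : 3 * D / c' ≤ n * x ^ 6 := (le_max_right _ _).trans (h5.trans h4)
    rw [mul_one_div, div_le_iff₀ h3]
    rw [div_le_iff₀ hc] at h6
    linarith
  have e3 : D * (n * x ^ 5) * (A ^ (-(1 / 1000) : ℝ) + A * (w 1 ^ 2 / x ^ 3) +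
      1 / (n * x ^ 6)) ≤ c' * (n * x ^ 5) := by
    have h4 : D * (n * x ^ 5) * (A ^ (-(1 / 1000) : ℝ) + A * (w 1 ^ 2 / x ^ 3) +
        1 / (n * x ^ 6)) = (D * A ^ (-(1 / 1000) : ℝ) + D * (A * (w 1 ^ 2 / x ^ 3)) +
          D * (1 / (n * x ^ 6))) * (n * x ^ 5) := by ring
    rw [h4]
    exact mul_le_mul_of_nonneg_right (by linarith) (by positivity)
  have e : (n : ℝ) * w 1 ^ 2 / (2 * β) = n / (2 * β) * w 1 ^ 2 := by field_simp
  rw [e] at h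
  linarith

/-- **The small form, pure law.** -/
theorem pure_c (hβ : 0 < β) (hG : CG β) {c' : ℝ} (hc : 0 < c') :
    ∃ ε K0 : ℝ, ∃ n0 : ℕ, 0 < ε ∧ 1 ≤ K0 ∧ ∀ n : ℕ, n0 ≤ n → ∀ x V : ℝ,
      K0 * (n : ℝ) ^ (-(1 / 6) : ℝ) ≤ x → x ≤ (n : ℝ) ^ (-(21 / 200) : ℝ) → 0 ≤ V →
      V ≤ ε * x ^ 3 → Pu n β x V ≤ P1 n β x + n / (2 * β) * V + c' * (n * x ^ 5) := by
  obtain ⟨ε, K0, n1, hε, hK0, h⟩ := gen_c hβ hG 0 hc
  refine ⟨ε, K0, max n1 1, hε, hK0, ?_⟩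
  intro n hn x V hx0 hx1 hV0 hV
  have hn1 : n1 ≤ n := (le_max_left _ _).trans hn
  have hn0 : 0 < n := by
    have : 1 ≤ n := (le_max_right _ _).trans hn
    omega
  have hn' : (0 : ℝ) < n := Nat.cast_pos.2 hn0
  have hx : 0 < x := lt_of_lt_of_le (by positivity) hx0
  have hx1' : x ≤ 1 := rpow_le_one' hn0 (by norm_num) hx1
  have h3 := h n hn1 x 1 (cm 1 x) (fun _ => β / √n) (fun _ => √V) hx0 hx1 le_rfl
    (em_cm le_rfl hx hx1') (cm_one x) (by rw [cm_one]; linarith)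
    (by
      rw [div_pow, Real.sq_sqrt hn'.le]
      linarith) (tv_one n β) (fun j h1 h2 => absurd h1 (by omega))
    (by rw [Real.sq_sqrt hV0]; exact hV)
  rw [fe_P1 hx hx1', Real.sq_sqrt hV0] at h3
  exact h3

/-- **The small form, two levels** (the input of the resets). -/
theorem two_c (hβ : 0 < β) (hG : CG β) {c' : ℝ} (hc : 0 < c') :
    ∃ ε K0 : ℝ, ∃ n0 : ℕ, 0 < ε ∧ 1 ≤ K0 ∧ ∀ n : ℕ, n0 ≤ n → ∀ x z T V : ℝ,
      K0 * (n : ℝ) ^ (-(1 / 6) : ℝ) ≤ x → x ≤ (n : ℝ) ^ (-(21 / 200) : ℝ) → z ≤ 2 * x →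
      0 ≤ T → T ≤ x ^ 2 → 0 ≤ V → V ≤ ε * x ^ 3 → ∀ m b w : ℕ → ℝ, Em 2 m → m 1 = x →
      m 2 = z → b 1 = β / √n * √(1 - T) → b 2 = β / √n * √T → w 1 ^ 2 = V → w 2 = 0 →
      (skS n 2 m b w).fe ≤ P2 n β x T z + n / (2 * β) * V + c' * (n * x ^ 5) := by
  obtain ⟨ε, K0, n1, hε, hK0, h⟩ := gen_c hβ hG 1 hc
  refine ⟨ε, K0, max n1 1, hε, hK0, ?_⟩
  intro n hn x z T V hx0 hx1 hz hT0 hT hV0 hV m b w hm hm1 hm2 hb1 hb2 hw1 hw2
  have hn1 : n1 ≤ n := (le_max_left _ _).trans hn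
  have hn0 : 0 < n := by
    have : 1 ≤ n := (le_max_right _ _).trans hn
    omega
  have hn' : (0 : ℝ) < n := Nat.cast_pos.2 hn0
  have hx : 0 < x := lt_of_lt_of_le (by positivity) hx0
  have hx1' : x ≤ 1 := rpow_le_one' hn0 (by norm_num) hx1
  have hT1 : T ≤ 1 := hT.trans (by nlinarith)
  have h3 := h n hn1 x 2 m b w hx0 hx1 (by norm_num) hm hm1 (by rw [hm2]; exact hz)
    (by
      rw [hb1, mul_pow, div_pow, Real.sq_sqrt hn'.le, Real.sq_sqrt (by linarith)]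
      exact mul_le_mul_of_nonneg_left (by linarith) (by positivity))
    (by
      simp only [tv, Finset.sum_range_succ, Finset.range_zero, Finset.sum_empty, zero_add]
      rw [hb1, hb2, mul_pow, mul_pow, div_pow, Real.sq_sqrt hn'.le, Real.sq_sqrt (by linarith),
        Real.sq_sqrt hT0]
      ring)
    (fun j h1 h2 => by
      have : j = 2 := by omega
      rw [this, hw2]) (by rw [hw1]; exact hV)
  rw [hw1] at h3
  have e : (skS n 2 m b fun _ => 0).fe = P2 n β x T z := by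
    rw [fe_two hm hb1 hb2 rfl rfl, hm1, hm2]
    rfl
  rw [e] at h3
  exact h3

end Vale.Agent.P146.H97
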