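import Vale.Agent.P146.H97.TA4
import Vale.Agent.P146.H97.CG1
import Vale.Agent.P146.H310.Cor2

/-!
# P146: removal of a small field: `CG β` from the two inputs of the windows (helper97)
-/

open MeasureTheory ProbabilityTheory

namespace Vale.Agent.P146.H97

open Vale.Agent.P157 Vale.Agent.P157.Lv Vale.Agent.P157.Lv.Sy
open Vale.Agent.P146.H425 Vale.Agent.P146.H325 Vale.Agent.P146.R1 Vale.Agent.P146.U
open Vale.Agent.P146.H93 Vale.Agent.P146.H479 Vale.Agent.P146.H112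
open Vale.Agent.P146.H379.FS (TT TP)

set_option linter.unusedSectionVars false

variable {β : ℝ}

/-- the cost of the exponents which grow outwards -/
theorem tp (hβ : 0 ≤ β) (h2 : Ex2Out β) (hL : LStar β) :
    ∃ C : ℝ, ∃ n0 : ℕ, 0 < C ∧ ∀ n : ℕ, n0 ≤ n → TP β RR C n := by
  obtain ⟨C, n0, hC, h⟩ := tailprof0' hβ h2 hL
  refine ⟨C, max n0 1, hC, ?_⟩
  intro n hn x A N V0 hx0 hx1 hA hV hN hN1
  have hn1 : n0 ≤ n := (le_max_left _ _).trans hn
  have hn2 : 0 < n := lt_of_lt_of_le one_pos ((le_max_right _ _).trans hn)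
  have hn' : (0 : ℝ) < n := Nat.cast_pos.2 hn2
  have hx : 0 < x := lt_of_lt_of_le (by positivity) hx0
  have h3 := h n hn1 x (A * x ^ 2) N
    (VV x (fun j => √(RR ^ (j + 1) * (A * x ^ 2) - RR ^ j * (A * x ^ 2))) V0) hx0 hx1
    (mul_le_mul_of_nonneg_right hA (sq_nonneg x)) hN
    (by rw [pow_succ']; linarith) hV (fun j _ => rfl)
  rwa [mul_div_cancel_right₀ _ (by positivity : x ^ 2 ≠ 0)] at h3

/-- **The removal of a field on the first level.** -/
theorem cg (hβ : 0 < β) (h2 : Ex2Out β) (hL : LStar β) : CG β := by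
  obtain ⟨C, n0, hC, h⟩ := tp hβ.le h2 hL
  have hR : 1 < RR := by linarith [RR_two]
  have hlog : 0 ≤ Real.log (2 * RR) := Real.log_nonneg (by linarith)
  refine ⟨β / 2 + Real.log (2 * RR) / 2 + 1 / β + 2 / β ^ 2 + C, max n0 1, by positivity, ?_⟩
  intro n hn x A K m b w c hx0 hx1 hA hAx hm hm1 hm2 hb hc1 hc2 hc3 hw hw1 hxβ
  have hn1 : n0 ≤ n := (le_max_left _ _).trans hn
  have hn2 : 0 < n := lt_of_lt_of_le one_pos ((le_max_right _ _).trans hn)
  exact H310.FR_of_TP rfl (h n hn1) hn2 hβ hR hC.le hx0 hx1 hA hAx K m b w c hm hm1 hm2 hb hc1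
    hc2 hc3 hw hw1 hxβ

end Vale.Agent.P146.H97
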