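import Vale.Agent.P146.H97.TA1

/-!
# P146: nested functionals with outward increasing exponents

`chain`: the functional with an arbitrary profile `V 0` on the inner share `K 0` and the exponents
`b (j + 1)` on the slices `[K j, K (j + 1)]` (nondecreasing in `j`) is at most the functional with
the exponent `x0` outside of `K 0`, up to `∑ C/2 * N b^5 (K (j+1) / K j) (K j / b²)^(-1/1000)`,
`b = b (j+1)`.
-/

open MeasureTheory ProbabilityTheory

namespace Vale.Agent.P146.H97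

open Vale.Agent.P157.Lv Vale.Agent.P146.H425 Vale.Agent.P146.R1 Vale.Agent.P146.U

set_option linter.unusedSectionVars false

variable {κ : Type} [Fintype κ] {F V : (κ → ℝ) → ℝ} {D DV : κ → (κ → ℝ) → ℝ}
  {B L x x0 a b c r s e τ G M σ T N BV LV : ℝ}

lemma Pf.mono (p : Pf F x0 x τ V DV BV LV) (h : C11 F D B L) (hc : Cv F) (hx : 0 < x)
    {x' : ℝ} (hxx : x ≤ x') : Pf F x0 x' τ V DV BV LV where
  c11 := p.c11
  cv := p.cv
  le := fun y => (p.le y).trans (WX_mono h hc hx hxx _ y)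
  ge := p.ge

/-- one slice -/
lemma slice (h1 : C11 V DV BV LV) (hc1 : Cv V) (hx0 : 0 < x0) (hb : x0 ≤ b) (he : 0 < e)
    {c' : ℝ} (hc' : c ^ 2 + r ^ 2 = c' ^ 2) :
    W x0 c (W b r (W e s V)) 0 ≤ W x0 c' (W e s V) 0 + (b - x0) / 2 * r ^ 2 *
      Mn x0 c (W b r (W e s V)) (Mn b r (W e s V) (G2 e s V DV)) 0 := by
  have hb0 : 0 < b := hx0.trans_le hb
  have hU := h1.W' he s
  have hUc : Cv (W e s V) := Cv.W h1 hc1 he s
  have l1 := lipW h1 he s
  have eG : EG fun w => ∑ i, DW e s V DV i w ^ 2 := hU.eg_G2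
  have k1 : ∀ w, W b r (W e s V) w ≤ W x0 r (W e s V) w + (b - x0) / 2 * r ^ 2 *
      Mn b r (W e s V) (fun w => ∑ i, DW e s V DV i w ^ 2) w := fun w =>
    W_drop hU hUc hx0 hb w
  have k2 := W_tan_le (Lip.W l1 hx0 r) (Lip.W l1 hb0 r) hx0
    ((eg_Mn l1 eG b r).const_mul ((b - x0) / 2 * r ^ 2)) k1 c 0
  rw [Mn_const_mul, W_W hU.lip hU.B0 hx0 hc'] at k2
  exact k2

/-- the hypotheses at one exponent -/
structure Hy (F : (κ → ℝ) → ℝ) (N M Λ1 CL x0 b : ℝ) : Prop where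
  half : b ≤ 1 / 2
  six : 1 ≤ N * b ^ 6
  up : UP (N * b ^ 4) b M F
  hl : HL N b Λ1 CL F
  inc : W b 1 F 0 ≤ W x0 1 F 0 + M * (N * b ^ 4 * b)

/-- the cost of one slice -/
noncomputable def cost (N C : ℝ) (b K : ℕ → ℝ) (j : ℕ) : ℝ :=
  C / 2 * (N * b (j + 1) ^ 5) * (K (j + 1) / K j) *
    (K j / b (j + 1) ^ 2) ^ (-(1 / 1000) : ℝ)

/-- `V` is a nested functional on the inner share `K` whose last layer (exponent in `[x0, x]`)
covers at least the half of the share. -/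
def Rep (F : (κ → ℝ) → ℝ) (x0 x K : ℝ) (V : (κ → ℝ) → ℝ) : Prop :=
  ∃ (V' : (κ → ℝ) → ℝ) (D' : κ → (κ → ℝ) → ℝ) (B' L' τ s e : ℝ),
    Pf F x0 x τ V' D' B' L' ∧ 0 ≤ τ ∧ K = τ + s ^ 2 ∧ K ≤ 2 * s ^ 2 ∧ x0 ≤ e ∧ e ≤ x ∧
    V = W e s V'

lemma Rep.next {x1 K K' : ℝ} (p : Rep F x0 x K V) (h : C11 F D B L) (hc : Cv F)
    (hx0 : 0 < x0) (hx0x : x0 ≤ x) (hxx : x ≤ x1) (hK : 0 ≤ K) (hKK : 2 * K ≤ K') :
    Rep F x0 x1 K' (W x √(K' - K) V) := by
  obtain ⟨V', D', B', L', τ, s, e, p, hτ, hs, hs2, he, hex, hV⟩ := p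
  have p1 := p.step (b := e) (s := s) (τ' := K) h hx0 he hex hτ hs
  rw [← hV] at p1
  have hd : 0 ≤ K' - K := by linarith
  refine ⟨V, _, _, _, K, √(K' - K), x, p1.mono h hc (hx0.trans_le hx0x) hxx, hK, ?_, ?_, hx0x,
    hxx, rfl⟩
  · rw [Real.sq_sqrt hd]
    ring
  · rw [Real.sq_sqrt hd]
    linarith

/-- one layer -/
lemma Rep.one {K : ℝ} (h : C11 F D B L) (hc : Cv F) (hx0 : 0 < x0) (hx : x0 ≤ x) (he : x0 ≤ e)
    (hex : e ≤ x) (hK : 0 ≤ K) : Rep F x0 x K (W e √K F) := by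
  refine ⟨F, D, B, L, 0, √K, e, Pf.zero h hc hx0 (hx0.trans_le hx), le_rfl, ?_, ?_, he, hex, rfl⟩
  · rw [Real.sq_sqrt hK, zero_add]
  · rw [Real.sq_sqrt hK]
    linarith

/-- two layers -/
lemma Rep.two {K T1 z : ℝ} (h : C11 F D B L) (hc : Cv F) (hx0 : 0 < x0) (hz0 : x0 ≤ z)
    (hzx : z ≤ x) (he : x0 ≤ e) (hex : e ≤ x) (hT : 0 ≤ T1) (hK : 2 * T1 ≤ K) :
    Rep F x0 x K (W e √(K - T1) (W z √T1 F)) := by
  have hx : 0 < x := hx0.trans_le (he.trans hex)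
  have p := (Pf.zero h hc hx0 hx).step (b := z) (s := √T1) (τ' := T1) h hx0 hz0 hzx le_rfl
    (by rw [Real.sq_sqrt hT, zero_add])
  have hd : 0 ≤ K - T1 := by linarith
  refine ⟨_, _, _, _, T1, √(K - T1), e, p, hT, ?_, ?_, he, hex, rfl⟩
  · rw [Real.sq_sqrt hd]
    ring
  · rw [Real.sq_sqrt hd]
    linarith

/-- **The chain of slices.** -/
theorem chain {M Λ1 CL : ℝ} (hM : 0 < M) (hCL : 0 < CL) : ∃ C : ℝ, 0 < C ∧
    ∀ (κ : Type) [Fintype κ] (F : (κ → ℝ) → ℝ) (D : κ → (κ → ℝ) → ℝ) (B L N : ℝ),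
      C11 F D B L → Cv F → 0 < N → ∀ (x0 : ℝ) (b K : ℕ → ℝ) (V : ℕ → (κ → ℝ) → ℝ) (J : ℕ),
      0 < x0 → x0 ≤ b 1 → (∀ j, b (j + 1) ≤ b (j + 2)) → 0 < K 0 →
      (∀ j < J, 2 * K j ≤ K (j + 1)) →
      (∀ j < J, K j ≤ 1 / 2) → K J ≤ 1 → (∀ j < J, b (j + 1) ^ 2 ≤ K j) →
      (∀ j < J, Hy F N M Λ1 CL x0 (b (j + 1))) →
      Rep F x0 (b 1) (K 0) (V 0) →
      (∀ j < J, V (j + 1) = W (b (j + 1)) √(K (j + 1) - K j) (V j)) →
      ∀ j ≤ J, W x0 √(1 - K j) (V j) 0 ≤ W x0 √(1 - K 0) (V 0) 0 +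
        ∑ i ∈ Finset.range j, cost N C b K i := by
  obtain ⟨C, hC, hT⟩ := tail_any (Λ1 := Λ1) hM hCL
  refine ⟨C, hC, fun κ _ F D B L N h hc hN x0 b K V J hx0 hb1 hbm hK0 hK2 hKh hK1 hbK hHy hV0
    hVs => ?_⟩
  have hbj : ∀ j, x0 ≤ b (j + 1) := fun j => by
    induction j with
    | zero => exact hb1
    | succ j ih => exact ih.trans (hbm j)
  have hbp : ∀ j, 0 < b (j + 1) := fun j => hx0.trans_le (hbj j)
  have hKp : ∀ j ≤ J, 0 < K j := by
    intro j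
    induction j with
    | zero => exact fun _ => hK0
    | succ j ih =>
      intro hj
      have h1 := ih (by omega)
      have h2 := hK2 j (by omega)
      linarith
  have hKle1 : ∀ j ≤ J, K j ≤ 1 := by
    intro j hj
    rcases eq_or_lt_of_le hj with rfl | hlt
    · exact hK1
    · linarith [hKh j hlt]
  -- the representation of `V j`
  have hrep : ∀ j ≤ J, Rep F x0 (b (j + 1)) (K j) (V j) := by
    intro j
    induction j with
    | zero => exact fun _ => hV0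
    | succ j ih =>
      intro hj
      rw [hVs j (by omega)]
      exact (ih (by omega)).next h hc hx0 (hbj j) (hbm j) (hKp j (by omega)).le
        (hK2 j (by omega))
  intro j
  induction j with
  | zero =>
    intro _
    rw [Finset.sum_range_zero, add_zero]
  | succ j ih =>
    intro hj
    have ih' := ih (by omega)
    have hjJ : j < J := by omega
    obtain ⟨V', D', B', L', τ, s, e, p, hτ, hs, hs2, he, hex, hVj⟩ := hrep j hjJ.le
    obtain ⟨q1, q2, q3, q4, q5⟩ := hHy j hjJ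
    have he0 : 0 < e := hx0.trans_le he
    have hkj := hKp j hjJ.le
    have hkj1 := hKle1 (j + 1) hj
    have hd : 0 ≤ K (j + 1) - K j := by linarith [hK2 j hjJ]
    have hd1 : 0 ≤ 1 - K (j + 1) := by linarith
    have hd2 : 0 ≤ 1 - K j := by linarith
    have k1 := slice (V := V') (DV := D') (s := s) (c := √(1 - K (j + 1)))
      (r := √(K (j + 1) - K j)) (c' := √(1 - K j)) (b := b (j + 1)) (e := e) p.c11 p.cv hx0
      (hbj j) he0 (by
        rw [Real.sq_sqrt hd1, Real.sq_sqrt hd, Real.sq_sqrt hd2]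
        ring)
    rw [← hVj, ← hVs j hjJ, Real.sq_sqrt hd] at k1
    have k2 := hT κ F D B L N (b (j + 1)) h hc hN (hbp _) q1 q2 q3 q4 x0 (b (j + 1)) e
      √(1 - K (j + 1)) √(K (j + 1) - K j) s τ (K j) B' L' V' D' p hx0
      (hbj _) le_rfl he hex hτ hs hs2 (by
        rw [Real.sq_sqrt hd1, Real.sq_sqrt hd]
        ring) (hbK j hjJ) (hKh j hjJ) q5
    rw [← hVj, ← hVs j hjJ] at k2
    rw [Finset.sum_range_succ]
    obtain ⟨m, hm⟩ : ∃ m, m = Mn x0 √(1 - K (j + 1)) (V (j + 1))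
      (Mn (b (j + 1)) √(K (j + 1) - K j) (V j) (G2 e s V' D')) 0 := ⟨_, rfl⟩
    rw [← hm] at k1 k2
    have hb2 := hbp j
    have hm0 : 0 ≤ m := by
      have l1 := lipW p.c11 he0 s
      rw [hm, hVs j hjJ, hVj]
      refine Mn_nonneg (Lip.W l1 hb2 _) (fun w => Mn_nonneg l1 (fun w => ?_) _ _ w) _ _ 0
      exact (G2_bd (p.c11.W' he0 s) w).1
    obtain ⟨ρ, hρ⟩ : ∃ ρ, ρ = (K j / b (j + 1) ^ 2) ^ (-(1 / 1000) : ℝ) := ⟨_, rfl⟩
    have hρ0 : 0 ≤ ρ := by rw [hρ]; positivity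
    rw [← hρ] at k2
    have k3 : (b (j + 1) - x0) / 2 * (K (j + 1) - K j) * m ≤ cost N C b K j := by
      unfold cost
      rw [← hρ]
      have k4 : m ≤ C * (N * b (j + 1) ^ 4) * ρ / K j := by
        rw [le_div_iff₀ hkj]
        linarith
      have k5 : (b (j + 1) - x0) / 2 * (K (j + 1) - K j) ≤ b (j + 1) / 2 * K (j + 1) := by
        refine mul_le_mul ?_ ?_ hd (by positivity)
        · linarith
        · linarith
      have k6 : 0 ≤ b (j + 1) / 2 * K (j + 1) := by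
        have := hKp (j + 1) hj
        positivity
      calc (b (j + 1) - x0) / 2 * (K (j + 1) - K j) * m
          ≤ b (j + 1) / 2 * K (j + 1) * (C * (N * b (j + 1) ^ 4) * ρ / K j) :=
            mul_le_mul k5 k4 hm0 k6
        _ = C / 2 * (N * b (j + 1) ^ 5) * (K (j + 1) / K j) * ρ := by
            field_simp
    linarith

end Vale.Agent.P146.H97
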