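import Vale.Agent.P146.H97.TA3

/-!
# P146: the same with the larger range `x ≤ n^(-21/200)`
-/

open MeasureTheory ProbabilityTheory

namespace Vale.Agent.P146.H97

open Vale.Agent.P157.Lv Vale.Agent.P146 Vale.Agent.P146.H425 Vale.Agent.P146.R1
  Vale.Agent.P146.H332 Vale.Agent.P146.H325 Vale.Agent.P146.U

set_option linter.unusedSectionVars false

variable {n : ℕ} {β x b : ℝ}

/-- the top exponent is still small, larger range -/
lemma top_small' (hn : 2 ^ 1000 ≤ n) (hx : (n : ℝ) ^ (-(1 / 6) : ℝ) ≤ x)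
    (hx' : x ≤ (n : ℝ) ^ (-(21 / 200) : ℝ)) {N : ℕ} {K0 : ℝ} (hK : 4 * x ^ 2 ≤ K0)
    (hN : RR ^ N * K0 ≤ 1 / 2) : 2 ^ (N + 1) * x ≤ (n : ℝ) ^ (-(1 / 10) : ℝ) := by
  have hnR : (2 : ℝ) ^ 1000 ≤ n := by exact_mod_cast hn
  have hn0 : (0 : ℝ) < n := lt_of_lt_of_le (by positivity) hnR
  have hn1 : (1 : ℝ) ≤ n := le_trans (one_le_pow₀ (by norm_num)) hnR
  have hx0 : 0 < x := (Real.rpow_pos_of_pos hn0 _).trans_le hx
  obtain ⟨u, hu⟩ : ∃ u : ℝ, u = 2 ^ N := ⟨_, rfl⟩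
  have hu0 : 0 < u := by rw [hu]; positivity
  have hR : RR ^ N = u ^ 7000 := by rw [RR_pow, hu]
  rw [hR] at hN
  have h1 : u ^ 7000 * x ^ 2 ≤ 1 := by
    have h2 : u ^ 7000 * (4 * x ^ 2) ≤ u ^ 7000 * K0 :=
      mul_le_mul_of_nonneg_left hK (by positivity)
    have h3 : 0 ≤ u ^ 7000 * x ^ 2 := by positivity
    linarith
  have h2 : ((n : ℝ) ^ (-(1 / 6) : ℝ)) ^ 2 ≤ x ^ 2 := pow_le_pow_left₀ (by positivity) hx 2
  have e2 : ((n : ℝ) ^ (-(1 / 6) : ℝ)) ^ 2 = ((n : ℝ) ^ (1 / 3 : ℝ))⁻¹ := by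
    rw [← Real.rpow_natCast, ← Real.rpow_mul hn0.le, ← Real.rpow_neg hn0.le]
    norm_num
  rw [e2] at h2
  have hn3 : 0 < (n : ℝ) ^ (1 / 3 : ℝ) := Real.rpow_pos_of_pos hn0 _
  have h3 : u ^ 7000 ≤ (n : ℝ) ^ (1 / 3 : ℝ) := by
    have h4 : u ^ 7000 * ((n : ℝ) ^ (1 / 3 : ℝ))⁻¹ ≤ 1 :=
      (mul_le_mul_of_nonneg_left h2 (by positivity)).trans h1
    rwa [← div_eq_mul_inv, div_le_one hn3] at h4
  have h4 : u ≤ (n : ℝ) ^ (1 / 21000 : ℝ) := by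
    have h5 : (u ^ 7000) ^ (1 / 7000 : ℝ) ≤ ((n : ℝ) ^ (1 / 3 : ℝ)) ^ (1 / 7000 : ℝ) :=
      Real.rpow_le_rpow (by positivity) h3 (by norm_num)
    have h6 : (u ^ 7000) ^ (1 / 7000 : ℝ) = u := by
      have := Real.pow_rpow_inv_natCast (x := u) (n := 7000) hu0.le (by norm_num)
      rw [one_div]
      exact_mod_cast this
    rw [h6, ← Real.rpow_mul hn0.le] at h5
    refine h5.trans (le_of_eq ?_)
    congr 1
    norm_num
  have h5 : (2 : ℝ) ≤ (n : ℝ) ^ (1 / 1000 : ℝ) := by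
    have h6 : ((2 : ℝ) ^ 1000) ^ (1 / 1000 : ℝ) ≤ (n : ℝ) ^ (1 / 1000 : ℝ) :=
      Real.rpow_le_rpow (by positivity) hnR (by norm_num)
    have h7 : ((2 : ℝ) ^ 1000) ^ (1 / 1000 : ℝ) = 2 := by
      have := Real.pow_rpow_inv_natCast (x := (2 : ℝ)) (n := 1000) (by norm_num) (by norm_num)
      rw [one_div]
      exact_mod_cast this
    rwa [h7] at h6
  calc 2 ^ (N + 1) * x = 2 * u * x := by rw [hu]; ring
    _ ≤ (n : ℝ) ^ (1 / 1000 : ℝ) * (n : ℝ) ^ (1 / 21000 : ℝ) * (n : ℝ) ^ (-(21 / 200) : ℝ) := by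
        refine mul_le_mul (mul_le_mul h5 h4 hu0.le (by positivity)) hx' hx0.le (by positivity)
    _ = (n : ℝ) ^ (1 / 1000 + 1 / 21000 + -(21 / 200) : ℝ) := by
        rw [← Real.rpow_add hn0, ← Real.rpow_add hn0]
    _ ≤ (n : ℝ) ^ (-(1 / 10) : ℝ) :=
        Real.rpow_le_rpow_of_exponent_le hn1 (by norm_num)

/-- **The functional with the exponents `x, 2x, 4x, ..`** on the shares `K0, R K0, R² K0, ..`. -/
theorem tailprof0' (hβ : 0 ≤ β) (h2 : Ex2Out β) (hL : LStar β) : ∃ C : ℝ, ∃ n0 : ℕ, 0 < C ∧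
    ∀ n : ℕ, n0 ≤ n → ∀ (x K0 : ℝ) (N : ℕ) (V : ℕ → (Pair n → ℝ) → ℝ),
    (n : ℝ) ^ (-(1 / 6) : ℝ) ≤ x → x ≤ (n : ℝ) ^ (-(21 / 200) : ℝ) → 4 * x ^ 2 ≤ K0 →
    RR ^ N * K0 ≤ 1 / 2 → 1 / 2 ≤ RR ^ (N + 1) * K0 →
    Rep (Fsk n β) x (2 * x) K0 (V 0) →
    (∀ j < N, V (j + 1) = W (2 ^ (j + 1) * x) √(RR ^ (j + 1) * K0 - RR ^ j * K0) (V j)) →
    W (2 ^ (N + 1) * x) √(1 - RR ^ N * K0) (V N) 0 ≤
      W x √(1 - K0) (V 0) 0 + C * (n * x ^ 5) * (K0 / x ^ 2) ^ (-(1 / 1000) : ℝ) := by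
  obtain ⟨M, Λ1, CL, n1, hM, hCL, hHy⟩ := hy_sk hβ h2 hL
  obtain ⟨C, hC, hch⟩ := chain (Λ1 := Λ1) hM hCL
  have hR2 := RR_two
  have hR4 := RR_four
  have hR0 : 0 < RR := by linarith
  obtain ⟨n2, hn2⟩ : ∃ n2 : ℕ, 2 ^ 1000 ≤ n2 := ⟨_, le_rfl⟩
  refine ⟨128 * C * RR, max n1 n2, by positivity,
    fun n hn x K0 N V hx hx' hK hN hN1 hV0 hVs => ?_⟩
  have hn1 : n1 ≤ n := (le_max_left _ _).trans hn
  have hn1000 : 2 ^ 1000 ≤ n := hn2.trans ((le_max_right _ _).trans hn)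
  clear hn2
  have hn0 : (0 : ℝ) < n := by
    have h3 : 0 < n := lt_of_lt_of_le (by positivity) hn1000
    exact_mod_cast h3
  have hx0 : 0 < x := (Real.rpow_pos_of_pos hn0 _).trans_le hx
  have hx2 : 0 < x ^ 2 := by positivity
  have hK0 : 0 < K0 := by linarith
  have htop := top_small' hn1000 hx hx' hK hN
  clear hn1000
  -- the sequences
  obtain ⟨b, hb⟩ : ∃ b : ℕ → ℝ, ∀ j, b j = 2 ^ j * x := ⟨fun j => 2 ^ j * x, fun _ => rfl⟩
  obtain ⟨K, hKd⟩ : ∃ K : ℕ → ℝ, ∀ j, K j = if j ≤ N then RR ^ j * K0 else 1 :=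
    ⟨fun j => if j ≤ N then RR ^ j * K0 else 1, fun _ => rfl⟩
  obtain ⟨V', hV'⟩ : ∃ V' : ℕ → (Pair n → ℝ) → ℝ, ∀ j, V' j = if j ≤ N then V j else
      W (2 ^ (N + 1) * x) √(1 - RR ^ N * K0) (V N) :=
    ⟨fun j => if j ≤ N then V j else W (2 ^ (N + 1) * x) √(1 - RR ^ N * K0) (V N), fun _ => rfl⟩
  have hKj : ∀ j ≤ N, K j = RR ^ j * K0 := fun j hj => by rw [hKd, if_pos hj]
  have hKN : K (N + 1) = 1 := by rw [hKd, if_neg (by omega)]
  have hVj : ∀ j ≤ N, V' j = V j := fun j hj => by rw [hV', if_pos hj]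
  have hVN : V' (N + 1) = W (2 ^ (N + 1) * x) √(1 - RR ^ N * K0) (V N) := by
    rw [hV', if_neg (by omega)]
  have hbp : ∀ j, 0 < b j := fun j => by rw [hb]; positivity
  have hbm : ∀ j, b j ≤ b (j + 1) := fun j => by
    rw [hb, hb, pow_succ]
    have : 0 < 2 ^ j * x := by positivity
    linarith
  have hbmono : Monotone b := monotone_nat_of_le_succ hbm
  have hb0 : b 0 = x := by rw [hb, pow_zero, one_mul]
  have hRj : ∀ j : ℕ, (1 : ℝ) ≤ RR ^ j := fun j => one_le_pow₀ (by linarith)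
  have hKmono : ∀ j ≤ N, K j ≤ 1 / 2 := by
    intro j hj
    rw [hKj j hj]
    refine le_trans (mul_le_mul_of_nonneg_right ?_ hK0.le) hN
    exact pow_le_pow_right₀ (by linarith) hj
  have hK2 : ∀ j < N + 1, 2 * K j ≤ K (j + 1) := by
    intro j hj
    rcases eq_or_lt_of_le (Nat.lt_succ_iff.1 hj) with rfl | hlt
    · rw [hKN, hKj _ le_rfl]
      linarith
    · rw [hKj j hlt.le, hKj (j + 1) hlt, pow_succ]
      have h3 : 0 < RR ^ j * K0 := by positivity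
      have h4 : RR ^ j * RR * K0 = RR * (RR ^ j * K0) := by ring
      rw [h4]
      exact mul_le_mul_of_nonneg_right hR2 h3.le
  have hratio : ∀ j < N + 1, K (j + 1) / K j ≤ 2 * RR := by
    intro j hj
    rcases eq_or_lt_of_le (Nat.lt_succ_iff.1 hj) with rfl | hlt
    · rw [hKN, hKj _ le_rfl, div_le_iff₀ (by positivity)]
      rw [pow_succ] at hN1
      linarith
    · rw [hKj j hlt.le, hKj (j + 1) hlt, pow_succ, div_le_iff₀ (by positivity)]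
      have : 0 < RR ^ j * K0 := by positivity
      have h5 : 0 < RR * (RR ^ j * K0) := by positivity
      linarith
  have hbK : ∀ j < N + 1, b (j + 1) ^ 2 ≤ K j := by
    intro j hj
    rw [hKj j (by omega), hb]
    have e1 : ((2 : ℝ) ^ (j + 1) * x) ^ 2 = 4 ^ j * (4 * x ^ 2) := by
      rw [mul_pow, ← pow_mul, mul_comm (j + 1) 2, pow_mul, pow_succ]
      norm_num
      ring
    rw [e1]
    exact mul_le_mul (pow_le_pow_left₀ (by norm_num) hR4 j) hK (by positivity) (by positivity)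
  have hHyj : ∀ j < N + 1, Hy (Fsk n β) n M Λ1 CL x (b (j + 1)) := by
    intro j hj
    refine hHy n hn1 x (b (j + 1)) hx0 ?_ ?_
    · refine hx.trans ?_
      rw [← hb0]
      exact hbmono (Nat.zero_le _)
    · refine le_trans ?_ htop
      have := hbmono (show j + 1 ≤ N + 1 by omega)
      rwa [hb (N + 1)] at this
  have hK00 : K 0 = K0 := by rw [hKj 0 (Nat.zero_le _), pow_zero, one_mul]
  have hb1 : b 1 = 2 * x := by rw [hb, pow_one]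
  have hmain := hch (Pair n) (Fsk n β) _ _ _ n (AP.c11_Fsk n β) (AP.cv_Fsk n β) hn0 x b K V'
    (N + 1) hx0 (by rw [hb1]; linarith) (fun j => hbm (j + 1)) (by rw [hK00]; exact hK0) hK2
    (fun j hj => hKmono j (by omega)) (by rw [hKN]) hbK hHyj
    (by rw [hVj 0 (Nat.zero_le _), hK00, hb1]; exact hV0)
    (fun j hj => by
      rcases eq_or_lt_of_le (Nat.lt_succ_iff.1 hj) with rfl | hlt
      · rw [hVN, hKN, hKj _ le_rfl, hb, hVj _ le_rfl]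
      · rw [hVj _ hlt, hVs j hlt, hVj _ hlt.le, hKj _ hlt, hKj _ hlt.le, hb]) (N + 1) le_rfl
  rw [hKN, sub_self, Real.sqrt_zero, hVN, W_zero hx0, hK00, hVj 0 (Nat.zero_le _)] at hmain
  refine hmain.trans (add_le_add le_rfl ?_)
  -- the sum of the costs
  obtain ⟨P, hP⟩ : ∃ P, P = (K0 / x ^ 2) ^ (-(1 / 1000) : ℝ) := ⟨_, rfl⟩
  have hP0 : 0 ≤ P := by rw [hP]; positivity
  rw [← hP]
  have hcost : ∀ j ∈ Finset.range (N + 1), cost n C b K j ≤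
      64 * C * RR * (n * x ^ 5) * P * (1 / 2) ^ j := by
    intro j hj
    have hj' : j < N + 1 := Finset.mem_range.1 hj
    have h3 : (K j / b (j + 1) ^ 2) ^ (-(1 / 1000) : ℝ) ≤ P * (2 ^ (j + 1) / 2 ^ (7 * j)) := by
      have e1 : K j / b (j + 1) ^ 2 = K0 / x ^ 2 * (RR ^ j / 4 ^ (j + 1)) := by
        rw [hKj j (by omega), hb, mul_pow, ← pow_mul, mul_comm (j + 1) 2, pow_mul]
        norm_num
        field_simp
      rw [e1, Real.mul_rpow (by positivity) (by positivity), ← hP]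
      exact mul_le_mul_of_nonneg_left (RR_rpow j) hP0
    unfold cost
    calc C / 2 * ((n : ℝ) * b (j + 1) ^ 5) * (K (j + 1) / K j) *
          (K j / b (j + 1) ^ 2) ^ (-(1 / 1000) : ℝ)
        ≤ C / 2 * (n * b (j + 1) ^ 5) * (2 * RR) * (P * (2 ^ (j + 1) / 2 ^ (7 * j))) := by
          have hb5 : 0 < b (j + 1) ^ 5 := pow_pos (hbp _) 5
          refine mul_le_mul (mul_le_mul_of_nonneg_left (hratio j hj') (by positivity)) h3
            (by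
              have : 0 < K j := by rw [hKj j (by omega)]; positivity
              positivity) (by positivity)
      _ = 64 * C * RR * (n * x ^ 5) * P * (1 / 2) ^ j := by
          rw [hb, pow_mul, one_div, inv_pow]
          have e2 : ((2 : ℝ) ^ 7) ^ j = (2 ^ j) ^ 7 := by rw [← pow_mul, ← pow_mul, mul_comm]
          have e3 : (2 : ℝ) ^ (j + 1) = 2 * 2 ^ j := pow_succ' 2 j
          rw [e2, e3]
          have hp : (0 : ℝ) < 2 ^ j := by positivity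
          generalize (2 : ℝ) ^ j = u at hp
          field_simp
          ring
  refine (Finset.sum_le_sum hcost).trans ?_
  rw [← Finset.mul_sum]
  have hgeo : ∑ j ∈ Finset.range (N + 1), (1 / 2 : ℝ) ^ j ≤ 2 := by
    have := geom_sum_eq (show (1 / 2 : ℝ) ≠ 1 by norm_num) (N + 1)
    rw [this]
    have h3 : (0 : ℝ) < (1 / 2) ^ (N + 1) := by positivity
    have e1 : ((1 / 2 : ℝ) ^ (N + 1) - 1) / (1 / 2 - 1) = 2 * (1 - (1 / 2) ^ (N + 1)) := by ring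
    rw [e1]
    linarith
  have h5 : 0 ≤ 64 * C * RR * (n * x ^ 5) * P := by positivity
  refine (mul_le_mul_of_nonneg_left hgeo h5).trans (le_of_eq (by ring))

/-- **The functional with the exponents `x, 2x, 4x, ..`** on the shares `K j = R^j A x²`, with
two exponents `x`, `z ∈ [x, 2x]` on `K 0` (`z` on the share `T1`). -/
theorem tailprof2' (hβ : 0 ≤ β) (h2 : Ex2Out β) (hL : LStar β) : ∃ C : ℝ, ∃ n0 : ℕ, 0 < C ∧
    ∀ n : ℕ, n0 ≤ n → ∀ (x A z T1 : ℝ) (N : ℕ) (K : ℕ → ℝ) (V : ℕ → (Pair n → ℝ) → ℝ),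
    (n : ℝ) ^ (-(1 / 6) : ℝ) ≤ x → x ≤ (n : ℝ) ^ (-(21 / 200) : ℝ) → 4 ≤ A →
    (∀ j, K j = RR ^ j * (A * x ^ 2)) → K N ≤ 1 / 2 → 1 / 2 ≤ RR * K N →
    x ≤ z → z ≤ 2 * x → 0 ≤ T1 → 2 * T1 ≤ K 0 →
    V 0 = W x √(K 0 - T1) (W z √T1 (Fsk n β)) →
    (∀ j < N, V (j + 1) = W (2 ^ (j + 1) * x) √(K (j + 1) - K j) (V j)) →
    W (2 ^ (N + 1) * x) √(1 - K N) (V N) 0 ≤
      P2 n β x T1 z + C * (n * x ^ 5) * A ^ (-(1 / 1000) : ℝ) := by
  obtain ⟨C, n0, hC, h⟩ := tailprof0' hβ h2 hL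
  refine ⟨C, max n0 1, hC, fun n hn x A z T1 N K V hx hx' hA hK hN hN1 hz hz2 hT hTK hV0 hVs => ?_⟩
  have hn1 : 1 ≤ n := (le_max_right _ _).trans hn
  obtain ⟨hx0, -⟩ := f_x6 hn1 hx
  have hz0 : 0 < z := hx0.trans_le hz
  have hK01 : K 0 ≤ 1 / 2 := by
    refine le_trans ?_ hN
    rw [hK, hK]
    refine mul_le_mul_of_nonneg_right ?_ (by positivity)
    exact pow_le_pow_right₀ (by linarith [RR_two]) (Nat.zero_le _)
  have h1 := tp_aux hx0 (fun K0 => h n ((le_max_left _ _).trans hn) x K0 N V hx hx') hA hK hN hN1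
    (by
      rw [hV0]
      exact Rep.two (AP.c11_Fsk n β) (AP.cv_Fsk n β) hx0 hz hz2 le_rfl (by linarith) hT hTK) hVs
  have hW := (AP.c11_Fsk n β).W' hz0 √T1
  have e1 : W x √(1 - K 0) (V 0) 0 = P2 n β x T1 z := by
    rw [hV0, W_W hW.lip hW.B0 hx0 (c := √(1 - T1))]
    · rfl
    · rw [Real.sq_sqrt (by linarith), Real.sq_sqrt (by linarith), Real.sq_sqrt (by linarith)]
      ring
  rwa [e1] at h1

/-- **The functional with the exponents `x, 2x, 4x, ..`** on the shares `K j = R^j A x²`. -/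
theorem tailprof' (hβ : 0 ≤ β) (h2 : Ex2Out β) (hL : LStar β) : ∃ C : ℝ, ∃ n0 : ℕ, 0 < C ∧
    ∀ n : ℕ, n0 ≤ n → ∀ (x A : ℝ) (N : ℕ) (K : ℕ → ℝ) (V : ℕ → (Pair n → ℝ) → ℝ),
    (n : ℝ) ^ (-(1 / 6) : ℝ) ≤ x → x ≤ (n : ℝ) ^ (-(21 / 200) : ℝ) → 4 ≤ A →
    (∀ j, K j = RR ^ j * (A * x ^ 2)) → K N ≤ 1 / 2 → 1 / 2 ≤ RR * K N →
    V 0 = W x √(K 0) (Fsk n β) →
    (∀ j < N, V (j + 1) = W (2 ^ (j + 1) * x) √(K (j + 1) - K j) (V j)) →
    W (2 ^ (N + 1) * x) √(1 - K N) (V N) 0 ≤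
      W x 1 (Fsk n β) 0 + C * (n * x ^ 5) * A ^ (-(1 / 1000) : ℝ) := by
  obtain ⟨C, n0, hC, h⟩ := tailprof2' hβ h2 hL
  refine ⟨C, max n0 1, hC, fun n hn x A N K V hx hx' hA hK hN hN1 hV0 hVs => ?_⟩
  have hn1 : 1 ≤ n := (le_max_right _ _).trans hn
  obtain ⟨hx0, -⟩ := f_x6 hn1 hx
  have hK0 : 0 ≤ K 0 := by
    rw [hK, pow_zero, one_mul]
    positivity
  have h1 := h n ((le_max_left _ _).trans hn) x A x 0 N K V hx hx' hA hK hN hN1 le_rfl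
    (by linarith) le_rfl (by linarith) (by
      rw [hV0, sub_zero, Real.sqrt_zero]
      congr 1
      funext w
      rw [W_zero hx0]) hVs
  have e1 : P2 n β x 0 x = W x 1 (Fsk n β) 0 := by
    rw [← PT_Fsk, PT_zero hx0]
  rwa [e1] at h1

end Vale.Agent.P146.H97
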