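import Vale.Agent.P146.U.Ex3e

/-!
# P146: the tail of the windows for arbitrary nested functionals

`lside0`: the selection argument of the L-side from a lower bound of the share of the window.
`Pf F x0 x τ V`: `V` is a nested functional of `F` on the inner share `τ` with all exponents in
`[x0, x]`. `tail_any`: the mean squared gradient of such a functional at the window `T`, with an
outer law of exponents in `[x0, x]`, is at most `C N x^4 (T / x²)^(-1/1000) / T`.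
-/

open MeasureTheory ProbabilityTheory

namespace Vale.Agent.P146.H97

open Vale.Agent.P157.Lv Vale.Agent.P146.H425 Vale.Agent.P146.R1 Vale.Agent.P146.U

set_option linter.unusedSectionVars false

variable {κ : Type} [Fintype κ] {F V : (κ → ℝ) → ℝ} {D DV : κ → (κ → ℝ) → ℝ}
  {B L x x0 a b c r s e τ G M σ T N BV LV : ℝ}

/-- **The selection**, from a lower bound of the share. -/
lemma l_sel0 (q : Par3 G x M σ T) (h : C11 F D B L) (hc : Cv F) (hU : UP G x M F)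
    (h00 : x / 16 * G * σ ^ 38 ≤
      Q3 x (x * σ ^ 40) (x * σ ^ 2) (T / 2) (T / 2) F - PT x (x * σ ^ 2) (T / 2) F) :
    ∃ (a t Δ : ℝ) (j i : ℕ), a = 4 ^ j * (x * σ ^ 40) ∧ (4 : ℝ) ^ j ≤ σ ^ 261 ∧
      ((2 : ℝ) ^ mG) ^ i ≤ σ ^ 261 ∧ t = T / 2 / lG ^ i ∧
      Δ = Q3 x a (x * σ ^ 2) (T / 2) t F - Q3 x x (x * σ ^ 2) (T / 2) t F ∧
      Q3 x (4 * a) (x * σ ^ 2) (T / 2) t F - Q3 x x (x * σ ^ 2) (T / 2) t F ≤ 4 ^ 8 * Δ ∧
      Q3 x a (x * σ ^ 2) (T / 2) (t / lG) F - Q3 x x (x * σ ^ 2) (T / 2) t F ≤ 1 / 2 * Δ ∧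
      x / 16 * G * σ ^ 38 * 4 ^ (8 * j) ≤ Δ * 2 ^ i ∧
      Δ ≤ a / 2 * t * mm G x M σ T a := by
  have hx := q.hx
  have hG := q.hG
  have hσ0 := q.σ0
  have hσ1 := q.σ1
  have hM := q.hM
  have hT0 := q.T0
  have hT1 := q.hT1
  have hy0 := q.y0
  have hl := lG_pos
  have hl1 := lG_one
  have hA : 0 < x / 16 * G * σ ^ 38 := by positivity
  obtain ⟨j, i, hj, hi, hΔ, h4, hhalf⟩ := grid_max
    (f := fun j i => Q3 x (4 ^ j * (x * σ ^ 40)) (x * σ ^ 2) (T / 2) (T / 2 / lG ^ i) F -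
      PT x (x * σ ^ 2) (T / 2) F) mG_ne hA
    (by simpa using h00) (fun j i => l_up q h hc hU j i)
  have hE : 16 * M * σ ^ 260 ≤ σ ^ 261 := by
    have : σ ^ 261 = σ * σ ^ 260 := by ring
    rw [this]
    exact mul_le_mul_of_nonneg_right q.hσM (by positivity)
  have hj4 : (1 : ℝ) ≤ 4 ^ j := one_le_pow₀ (by norm_num)
  have hli : 1 ≤ lG ^ i := one_le_pow₀ hl1
  have ht0 : 0 < T / 2 / lG ^ i := by positivity
  have htT : T / 2 / lG ^ i ≤ T / 2 := div_le_self (by positivity) hli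
  have hTl : T / 2 / lG ^ (i + 1) = T / 2 / lG ^ i / lG := by
    rw [pow_succ, div_div, div_div, div_div]
  have haj' : 4 ^ (j + 1) * (x * σ ^ 40) = 4 * (4 ^ j * (x * σ ^ 40)) := by
    rw [pow_succ]
    ring
  have haa : x * σ ^ 40 ≤ 4 ^ j * (x * σ ^ 40) := le_mul_of_one_le_left (by positivity) hj4
  have hya : 2 * (x * σ ^ 2) ≤ 4 ^ j * (x * σ ^ 40) := q.ya.trans haa
  have hQx : Q3 x x (x * σ ^ 2) (T / 2) (T / 2 / lG ^ i) F = PT x (x * σ ^ 2) (T / 2) F :=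
    Q3_x h hx hy0 ht0.le (by linarith)
  rw [haj'] at h4
  rw [hTl] at hhalf
  refine ⟨4 ^ j * (x * σ ^ 40), T / 2 / lG ^ i,
    Q3 x (4 ^ j * (x * σ ^ 40)) (x * σ ^ 2) (T / 2) (T / 2 / lG ^ i) F -
      PT x (x * σ ^ 2) (T / 2) F, j, i, rfl, hj.trans hE, hi.trans hE, rfl, ?_, ?_, ?_, ?_,
    l_up1 q h hc hU hya ht0.le htT⟩
  · rw [hQx]
  · rw [hQx]
    exact h4
  · rw [hQx]
    exact hhalf
  · rwa [div_le_iff₀ (by positivity)] at hΔ

/-- **The L-side**, from a lower bound of the share. -/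
theorem lside0 (q : Par3 G x M σ T) (hN : 0 < N) (hGN : G = N * x ^ 4) (hNx : 1 ≤ N * x ^ 6)
    (h : C11 F D B L) (hc : Cv F) (hU : UP G x M F) {Λ1 CL : ℝ}
    (hCL : 0 < CL) (hL : HL N x Λ1 CL F) (hσΛ : 16 * Λ1 ≤ σ) (hσC : 16 * CL ≤ σ)
    (h00 : x / 16 * G * σ ^ 38 ≤
      Q3 x (x * σ ^ 40) (x * σ ^ 2) (T / 2) (T / 2) F - PT x (x * σ ^ 2) (T / 2) F) :
    False := by
  obtain ⟨a, t, Δ, j, i, hja, hj, hi, ht, hΔd, h4, hhalf, hΔ, hΔu⟩ := l_sel0 q h hc hU h00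
  have hx := q.hx
  have hG := q.hG
  have hσ0 := q.σ0
  have hσ1 := q.σ1
  have hl := lG_pos
  have hT0 := q.T0
  have hj4 : (1 : ℝ) ≤ 4 ^ j := one_le_pow₀ (by norm_num)
  have haa : x * σ ^ 40 ≤ a := by
    rw [hja]
    exact le_mul_of_one_le_left (by positivity) hj4
  have ha0 : 0 < a := lt_of_lt_of_le (by positivity) haa
  have hli : 1 ≤ lG ^ i := one_le_pow₀ lG_one
  have ht0 : 0 < t := by
    rw [ht]
    exact div_pos (half_pos hT0) (by linarith)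
  have htT : t ≤ T / 2 := by
    rw [ht]
    exact div_le_self (by positivity) hli
  have h301 := d_a hx hσ0 hja hj
  have hlow := d_T q hi ht
  have hx2 : 0 < x ^ 2 := by positivity
  have hxt : x ^ 2 ≤ t := by
    have h3 : (2 : ℝ) ≤ σ ^ 1738 := by
      calc (2 : ℝ) ≤ σ := by linarith [q.hσ4]
        _ ≤ σ ^ 1738 := le_self_pow₀ hσ1 (by norm_num)
    have := mul_le_mul_of_nonneg_left h3 hx2.le
    linarith
  have h2i : (0 : ℝ) < 2 ^ i := by positivity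
  have hΔ0 : 0 ≤ Δ := by
    have h5 : 0 ≤ Δ * 2 ^ i := le_trans (by positivity) hΔ
    exact nonneg_of_mul_nonneg_left h5 h2i
  have hya : 2 * (x * σ ^ 2) ≤ a := q.ya.trans haa
  obtain ⟨hA1, hA2⟩ := d_act q hGN hNx (d_i hσ0 hi) hja hΔ0 hσΛ hΔ
  have hρ : Δ / (a * N * t) ≤ x ^ 2 := by
    refine le_trans ?_ (d_ρ q hN hGN ha0 h301)
    rw [div_le_div_iff₀ (by positivity) hN]
    have hm0 : 0 ≤ mm G x M σ T a := by
      have := q.hM
      unfold mm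
      positivity
    have h5 : Δ * N ≤ (a / 2 * t * mm G x M σ T a) * N := mul_le_mul_of_nonneg_right hΔu hN.le
    have h6 : 0 ≤ mm G x M σ T a * (a * N * t) := mul_nonneg hm0 (by positivity)
    have e : (a / 2 * t * mm G x M σ T a) * N = mm G x M σ T a * (a * N * t) / 2 := by ring
    rw [e] at h5
    linarith
  have hLL := hL a (x * σ ^ 2) (T / 2) t Δ (by linarith [q.xy]) (by linarith [q.y0])
    (d_a2 q ha0.le h301) (by positivity) (by linarith [q.hT1]) hxt (by linarith [q.hT1])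
    hΔd h4 hhalf hA1 hA2
  exact d_fin q hN hNx hCL hσC hlow h301 hρ hLL

/-! ### nested functionals -/

/-- `V` is a nested functional of `F` on the inner share `τ`, all exponents in `[x0, x]`. -/
structure Pf (F : (κ → ℝ) → ℝ) (x0 x τ : ℝ) (V : (κ → ℝ) → ℝ) (DV : κ → (κ → ℝ) → ℝ)
    (BV LV : ℝ) : Prop where
  c11 : C11 V DV BV LV
  cv : Cv V
  le : ∀ y, V y ≤ W x √τ F y
  ge : ∀ y, W x0 √τ F y ≤ V y

lemma Pf.zero (h : C11 F D B L) (hc : Cv F) (hx0 : 0 < x0) (hx : 0 < x) :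
    Pf F x0 x 0 F D B L where
  c11 := h
  cv := hc
  le := fun y => by rw [Real.sqrt_zero, W_zero hx]
  ge := fun y => by rw [Real.sqrt_zero, W_zero hx0]

lemma Pf.step (p : Pf F x0 x τ V DV BV LV) (h : C11 F D B L) (hx0 : 0 < x0)
    (hb : x0 ≤ b) (hbx : b ≤ x) (hτ : 0 ≤ τ) {τ' : ℝ} (hs : τ' = τ + s ^ 2) :
    Pf F x0 x τ' (W b s V) (DW b s V DV) BV (LV + 2 * b * (Fintype.card κ * BV) ^ 2) := by
  have hb0 : 0 < b := hx0.trans_le hb
  have hx : 0 < x := hb0.trans_le hbx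
  have hl := h.lip.lip h.B0
  have hV := p.c11.lip.lip p.c11.B0
  have hsq : s ^ 2 + √τ ^ 2 = √τ' ^ 2 := by
    rw [Real.sq_sqrt hτ, Real.sq_sqrt (by rw [hs]; positivity), hs]
    ring
  refine ⟨p.c11.W' hb0 s, Cv.W p.c11 p.cv hb0 s, fun y => ?_, fun y => ?_⟩
  · rw [← W_W h.lip h.B0 hx hsq]
    exact (WX_mono p.c11 p.cv hb0 hbx s y).trans (W_mono hV (Lip.W hl hx _) hx p.le s y)
  · rw [← W_W h.lip h.B0 hx0 hsq]
    exact (W_mono (Lip.W hl hx0 _) hV hx0 p.ge s y).trans (WX_mono p.c11 p.cv hx0 hb s y)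

/-- raising the exponent of one inner layer from `e` to `a` -/
lemma raise_ge (h1 : C11 V DV BV LV) (hc1 : Cv V) (hx0 : 0 < x0) (hb : 0 < b) (he : 0 < e)
    (hea : e ≤ a) (c r s : ℝ) :
    W x0 c (W b r (W e s V)) 0 + (a - e) / 2 * s ^ 2 *
      Mn x0 c (W b r (W e s V)) (Mn b r (W e s V) (G2 e s V DV)) 0 ≤
      W x0 c (W b r (W a s V)) 0 := by
  have ha : 0 < a := he.trans_le hea
  have l1 := lipW h1 he s
  have l2 := lipW h1 ha s
  have eG := eg_G2' h1 he s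
  have key : ∀ w, W e s V w + (a - e) / 2 * s ^ 2 * G2 e s V DV w ≤ W a s V w := by
    intro w
    have k1 := W_tangent (s := s) h1 hc1 he ha w
    have k2 := Kc_ge (s := s) h1 he w
    have k3 : (a - e) * ((e ^ 2 / 2 * (s ^ 2 * G2 e s V DV w)) / e ^ 2) ≤
        (a - e) * (Kc e s V w / e ^ 2) := by
      have : 0 ≤ a - e := by linarith
      gcongr
    have k4 : (a - e) * ((e ^ 2 / 2 * (s ^ 2 * G2 e s V DV w)) / e ^ 2) =
        (a - e) / 2 * s ^ 2 * G2 e s V DV w := by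
      field_simp
    rw [k4] at k3
    linarith
  have k5 : ∀ w, W b r (W e s V) w + (a - e) / 2 * s ^ 2 * Mn b r (W e s V) (G2 e s V DV) w ≤
      W b r (W a s V) w := by
    intro w
    have := W_tan_ge l1 l2 hb (eG.const_mul ((a - e) / 2 * s ^ 2)) key r w
    rwa [Mn_const_mul] at this
  have k6 := W_tan_ge (Lip.W l1 hb r) (Lip.W l2 hb r) hx0
    ((eg_Mn l1 eG b r).const_mul ((a - e) / 2 * s ^ 2)) k5 c 0
  rwa [Mn_const_mul] at k6

/-- all exponents outside of the window raised to `x` -/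
lemma raise_le (p : Pf F x0 x τ V DV BV LV) (h : C11 F D B L) (hc : Cv F) (hx0 : 0 < x0)
    (hb : x0 ≤ b) (hbx : b ≤ x) (ha : 0 < a) (hT : 0 ≤ T) (hsT : s ^ 2 = T)
    (h1 : c ^ 2 + r ^ 2 = 1 - τ - T) :
    W x0 c (W b r (W a s V)) 0 ≤ Q3 x a x τ T F := by
  have hb0 : 0 < b := hx0.trans_le hb
  have hx : 0 < x := hb0.trans_le hbx
  have hl := h.lip.lip h.B0
  have hV := p.c11.lip.lip p.c11.B0
  have hU1 := h.W' hx (√τ)
  have hU1l := Lip.W hl hx (√τ)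
  have hA := hU1.W' ha s
  have hAc : Cv (W a s (W x √τ F)) := Cv.W hU1 (Cv.W h hc hx _) ha s
  have hAl := Lip.W hU1l ha s
  have hR := hA.W' hx r
  have hRc : Cv (W x r (W a s (W x √τ F))) := Cv.W hA hAc hx r
  have hs2 : ∀ y, W a s (W x √τ F) y = W a √T (W x √τ F) y := by
    intro y
    have : s ^ 2 + (0 : ℝ) ^ 2 = √T ^ 2 := by rw [Real.sq_sqrt hT, hsT]; ring
    rw [← W_W hU1.lip hU1.B0 ha this]
    congr 1
    funext w
    rw [W_zero ha]
  have s1 : W x0 c (W b r (W a s V)) 0 ≤ W x0 c (W b r (W a s (W x √τ F))) 0 :=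
    W_mono (Lip.W (Lip.W hV ha s) hb0 r) (Lip.W hAl hb0 r) hx0
      (fun w => W_mono (Lip.W hV ha s) hAl hb0 (fun w => W_mono hV hU1l ha p.le s w) r w) c 0
  have s2 : W x0 c (W b r (W a s (W x √τ F))) 0 ≤ W x0 c (W x r (W a s (W x √τ F))) 0 :=
    W_mono (Lip.W hAl hb0 r) (Lip.W hAl hx r) hx0 (fun w => WX_mono hA hAc hb0 hbx r w) c 0
  have s3 : W x0 c (W x r (W a s (W x √τ F))) 0 ≤ W x c (W x r (W a s (W x √τ F))) 0 :=
    WX_mono hR hRc hx0 (hb.trans hbx) c 0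
  have s4 : W x c (W x r (W a s (W x √τ F))) 0 = Q3 x a x τ T F := by
    have h0 : 0 ≤ 1 - τ - T := by rw [← h1]; positivity
    have hsq : c ^ 2 + r ^ 2 = √(1 - τ - T) ^ 2 := by rw [Real.sq_sqrt h0, h1]
    rw [W_W hA.lip hA.B0 hx hsq]
    unfold Q3 PP
    congr 1
    funext y
    exact hs2 y
  linarith

/-- the lower bound of the share, abstract -/
lemma t_low (q : Par3 G x M σ T) (h : C11 F D B L) (hc : Cv F) (hU : UP G x M F) {m P0 : ℝ}
    (hcon : G / σ ^ 2 < T * m) (he : 0 < e) (hex : e ≤ x)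
    (hlow : P0 + (x * σ ^ 40 - e) / 2 * (T / 2) * m ≤ Q3 x (x * σ ^ 40) x (T / 2) (T / 2) F)
    (hP : W x 1 F 0 ≤ P0 + M * (G * x)) :
    x / 16 * G * σ ^ 38 ≤
      Q3 x (x * σ ^ 40) (x * σ ^ 2) (T / 2) (T / 2) F - PT x (x * σ ^ 2) (T / 2) F := by
  have hx := q.hx
  have hG := q.hG
  have hM := q.hM
  have hσ0 := q.σ0
  have hσ1 := q.σ1
  have hσ4 := q.hσ4
  have hT0 := q.T0
  have hxT := q.xT
  have hx2 : 0 < x ^ 2 := by positivity
  have h2 := Q3_mono_y (a := x * σ ^ 40) (τ := T / 2) (T := T / 2) h hc hx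
    (show 0 < x * σ ^ 40 by positivity) hx (show x ≤ x * σ ^ 2 by linarith [q.xy])
  have h3 := hU.bd hG hx q.hM.le hσ1 (b := x * σ ^ 2) (T := T / 2) (by linarith [q.xy])
    (by linarith [q.hT1]) (by linarith) (by rw [← q.hT]; linarith)
  have h4 : x * σ ^ 40 / 2 ≤ x * σ ^ 40 - e := by
    have h41 : 4 ≤ σ ^ 40 := by
      calc (4 : ℝ) ≤ σ := hσ4
        _ ≤ σ ^ 40 := le_self_pow₀ hσ1 (by norm_num)
    have : x * 4 ≤ x * σ ^ 40 := mul_le_mul_of_nonneg_left h41 hx.le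
    linarith
  have h5 : x / 8 * G * σ ^ 38 ≤ (x * σ ^ 40 - e) / 2 * (T / 2) * m := by
    have h6 : x * σ ^ 40 / 4 * (1 / 2 * (G / σ ^ 2)) ≤
        (x * σ ^ 40 - e) / 2 * (1 / 2 * (T * m)) := by
      refine mul_le_mul (by linarith) (by linarith) (by positivity) ?_
      have : 0 ≤ x * σ ^ 40 := by positivity
      linarith
    refine le_trans (le_of_eq ?_) (h6.trans (le_of_eq (by ring)))
    field_simp
    norm_num
  have h6 : M * (G * (x * σ ^ 2) * ((x * σ ^ 2) / x) ^ 5 * σ ^ 20) + M * (G * x) ≤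
      x / 16 * G * σ ^ 38 := by
    have e3 : (x * σ ^ 2) / x = σ ^ 2 := by field_simp
    rw [e3]
    have e4 : M * (G * (x * σ ^ 2) * (σ ^ 2) ^ 5 * σ ^ 20) =
        (x * G * σ ^ 32) * M := by ring
    have e5 : x / 16 * G * σ ^ 38 = (x * G * σ ^ 32) * (σ ^ 6 / 16) := by
      ring
    have e6 : M * (G * x) ≤ (x * G * σ ^ 32) * M := by
      have h32 : (1 : ℝ) ≤ σ ^ 32 := one_le_pow₀ hσ1
      have : 0 ≤ x * G * M := by positivity
      nlinarith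
    rw [e4, e5]
    have e7 : (x * G * σ ^ 32) * (2 * M) ≤ (x * G * σ ^ 32) * (σ ^ 6 / 16) := by
      refine mul_le_mul_of_nonneg_left ?_ (by positivity)
      have h8 : σ * 4 ≤ σ ^ 6 := by
        have h9 : σ ^ 6 = σ * σ ^ 5 := by ring
        have h10 : 4 ≤ σ ^ 5 := hσ4.trans (le_self_pow₀ hσ1 (by norm_num))
        rw [h9]
        exact mul_le_mul_of_nonneg_left h10 hσ0.le
      linarith [q.hσM]
    linarith
  have e7 : x / 8 * G * σ ^ 38 = x / 16 * G * σ ^ 38 + x / 16 * G * σ ^ 38 := by ring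
  rw [e7] at h5
  linarith

/-- the crude bound of the gradient at one window -/
lemma t_crude (h : C11 F D B L) (hG : 0 < G) (hx : 0 < x) (hM : 0 < M)
    (hU : UP G x M F) (hσ : 1 ≤ σ) {m P0 : ℝ} (hm : 0 ≤ m) (hex : e ≤ x)
    (hT0 : x ^ 2 ≤ T) (hT1 : T ≤ 1 / 2) (hT : T ≤ x ^ 2 * σ ^ 2000)
    (hlow : P0 + (4 * x - e) / 2 * (T / 2) * m ≤ Q3 x (4 * x) (4 * x) (T / 2) (T / 2) F)
    (hP : W x 1 F 0 ≤ P0 + M * (G * x)) :
    T * m ≤ 4 ^ 7 * M * σ ^ 20 * G := by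
  have hx2 : 0 < x ^ 2 := by positivity
  have hTp : 0 < T := hx2.trans_le hT0
  rw [Q3_self h (by linarith) (by positivity) (by positivity), add_halves] at hlow
  have h2 := hU.bd hG hx hM.le hσ (b := 4 * x) (by linarith) hT1 hT0 hT
  have e1 : (4 * x) / x = 4 := by field_simp
  rw [e1] at h2
  have h3 : 3 / 4 * x * (T * m) ≤ (4 * x - e) / 2 * (T / 2) * m := by
    have h4 : 0 ≤ T * m := by positivity
    have h5 : 3 / 4 * x * (T * m) ≤ (4 * x - e) / 4 * (T * m) :=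
      mul_le_mul_of_nonneg_right (by linarith) h4
    refine h5.trans (le_of_eq (by ring))
  have h20 : (1 : ℝ) ≤ σ ^ 20 := one_le_pow₀ hσ
  have h6 : M * (G * x) ≤ M * (G * x) * σ ^ 20 := le_mul_of_one_le_right (by positivity) h20
  have h7 : x * (T * m) ≤ x * (4 ^ 7 * M * σ ^ 20 * G) := by
    have h8 : 3 / 4 * x * (T * m) ≤ (4 ^ 6 + 1) * (M * (G * x) * σ ^ 20) := by
      have e2 : M * (G * (4 * x) * 4 ^ 5 * σ ^ 20) = 4 ^ 6 * (M * (G * x) * σ ^ 20) := by ring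
      rw [e2] at h2
      linarith
    have h9 : 0 ≤ M * (G * x) * σ ^ 20 := by positivity
    have e3 : x * (4 ^ 7 * M * σ ^ 20 * G) = 4 ^ 7 * (M * (G * x) * σ ^ 20) := by ring
    rw [e3]
    nlinarith
  exact le_of_mul_le_mul_left h7 hx

/-- **The tail for arbitrary nested functionals.** -/
theorem tail_any {M Λ1 CL : ℝ} (hM : 0 < M) (hCL : 0 < CL) : ∃ C : ℝ, 0 < C ∧
    ∀ (κ : Type) [Fintype κ] (F : (κ → ℝ) → ℝ) (D : κ → (κ → ℝ) → ℝ) (B L N x : ℝ),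
      C11 F D B L → Cv F → 0 < N → 0 < x → x ≤ 1 / 2 → 1 ≤ N * x ^ 6 →
      UP (N * x ^ 4) x M F → HL N x Λ1 CL F →
      ∀ (x0 b e c r s τ T BV LV : ℝ) (V : (κ → ℝ) → ℝ) (DV : κ → (κ → ℝ) → ℝ),
      Pf F x0 x τ V DV BV LV → 0 < x0 → x0 ≤ b → b ≤ x → x0 ≤ e → e ≤ x → 0 ≤ τ →
      T = τ + s ^ 2 → T ≤ 2 * s ^ 2 → c ^ 2 + r ^ 2 + T = 1 → x ^ 2 ≤ T → T ≤ 1 / 2 →
      W x 1 F 0 ≤ W x0 1 F 0 + M * (N * x ^ 4 * x) →
      T * Mn x0 c (W b r (W e s V)) (Mn b r (W e s V) (G2 e s V DV)) 0 ≤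
        C * (N * x ^ 4) * (T / x ^ 2) ^ (-(1 / 1000) : ℝ) := by
  obtain ⟨s₀, hs4, hsM, hsΛ, hsC⟩ : ∃ s : ℝ, 4 ≤ s ∧ 16 * M ≤ s ∧
      16 * Λ1 ≤ s ∧ 16 * CL ≤ s :=
    ⟨max 4 (max (16 * M) (max (16 * Λ1) (16 * CL))), by simp, by simp,
      by simp, by simp⟩
  have hs0 : 0 < s₀ := by linarith
  have hs20 : 0 < s₀ ^ 20 := pow_pos hs0 _
  have hs2 : 0 < s₀ ^ 2 := pow_pos hs0 _
  refine ⟨4 ^ 7 * M * s₀ ^ 20 * s₀ ^ 2 + 1, by positivity,
    fun κ _ F D B L N x h hc hN hx hx1 hNx hU hL x0 b e c r s τ T BV LV V DV p hx0 hb hbx he hex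
      hτ hTs hT2 hcr hT0 hT1 hW => ?_⟩
  have hx2 : 0 < x ^ 2 := by positivity
  have hx4 : 0 < x ^ 4 := by positivity
  have hG0 : 0 < N * x ^ 4 := mul_pos hN hx4
  have hTp : 0 < T := hx2.trans_le hT0
  have hr0 : 0 < T / x ^ 2 := div_pos hTp hx2
  have hb0 : 0 < b := hx0.trans_le hb
  have he0 : 0 < e := hx0.trans_le he
  -- the last half of the window
  obtain ⟨v, hv⟩ : ∃ v, v = √(s ^ 2 - T / 2) := ⟨_, rfl⟩
  have hv2 : v ^ 2 = s ^ 2 - T / 2 := by rw [hv, Real.sq_sqrt (by linarith)]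
  have p1 : Pf F x0 x (T / 2) (W e v V) (DW e v V DV) BV
      (LV + 2 * e * (Fintype.card κ * BV) ^ 2) := p.step h hx0 he hex hτ (by rw [hv2]; linarith)
  have hsq : √(T / 2) ^ 2 = T / 2 := Real.sq_sqrt (by positivity)
  have hss : √(T / 2) ^ 2 + v ^ 2 = s ^ 2 := by rw [hsq, hv2]; ring
  have eW : W e s V = W e √(T / 2) (W e v V) := by
    funext w
    exact (W_W p.c11.lip p.c11.B0 he0 hss w).symm
  have eG : G2 e s V DV = G2 e √(T / 2) (W e v V) (DW e v V DV) := by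
    funext w
    unfold G2
    refine Finset.sum_congr rfl fun i _ => ?_
    congr 1
    exact DW_step p.c11 he0 hss i w
  obtain ⟨m, hm⟩ : ∃ m, m = Mn x0 c (W b r (W e s V)) (Mn b r (W e s V) (G2 e s V DV)) 0 :=
    ⟨_, rfl⟩
  obtain ⟨P0, hP0⟩ : ∃ P0, P0 = W x0 c (W b r (W e s V)) 0 := ⟨_, rfl⟩
  have hm0 : 0 ≤ m := by
    rw [hm]
    have l1 := lipW p.c11 he0 s
    refine Mn_nonneg (Lip.W l1 hb0 r) (fun w => Mn_nonneg l1 (fun w => ?_) b r w) x0 c 0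
    exact (G2_bd (p.c11.W' he0 s) w).1
  have hlowa : ∀ a y : ℝ, e ≤ a → x ≤ y → P0 + (a - e) / 2 * (T / 2) * m ≤
      Q3 x a y (T / 2) (T / 2) F := by
    intro a y hea hxy
    have ha : 0 < a := he0.trans_le hea
    have k1 := raise_ge p1.c11 p1.cv hx0 hb0 he0 hea c r √(T / 2)
    rw [← eW, ← eG, hsq, ← hm, ← hP0] at k1
    have k2 := raise_le (a := a) (s := √(T / 2)) (T := T / 2) (c := c) (r := r) p1 h hc hx0 hb hbx
      ha (by positivity) hsq (by linarith)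
    exact (k1.trans k2).trans (Q3_mono_y h hc hx ha hx hxy)
  have hP : W x 1 F 0 ≤ P0 + M * (N * x ^ 4 * x) := by
    have p2 := ((p.step (b := e) (s := s) h hx0 he hex hτ hTs).step (b := b) (s := r)
      (τ' := T + r ^ 2) h hx0 hb hbx (by linarith) rfl).step (b := x0) (s := c) (τ' := 1) h hx0
      le_rfl (hb.trans hbx) (by positivity) (by linarith)
    have := p2.ge 0
    rw [Real.sqrt_one, ← hP0] at this
    linarith
  rw [← hm]
  -- the exponent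
  obtain ⟨σ, hσ⟩ : ∃ σ, σ = (T / x ^ 2) ^ (1 / 2000 : ℝ) := ⟨_, rfl⟩
  have hσ0 : 0 < σ := by rw [hσ]; exact Real.rpow_pos_of_pos hr0 _
  have hσ2 : σ ^ 2000 = T / x ^ 2 := by
    rw [hσ]
    exact rpow_2000 hr0.le
  have hTσ : T = x ^ 2 * σ ^ 2000 := by
    rw [hσ2]
    exact (mul_div_cancel₀ T hx2.ne').symm
  have hpow : (T / x ^ 2) ^ (-(1 / 1000) : ℝ) = 1 / σ ^ 2 := by
    rw [hσ]
    generalize T / x ^ 2 = r at hr0 ⊢
    rw [← Real.rpow_natCast, ← Real.rpow_mul hr0.le, Real.rpow_neg hr0.le, one_div]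
    norm_num
  rw [hpow]
  have hσs2 : 0 < σ ^ 2 := pow_pos hσ0 _
  rcases le_total s₀ σ with hle | hge
  · have q : Par3 (N * x ^ 4) x M σ T :=
      ⟨hG0, hx, by linarith, hM, hs4.trans hle, hsM.trans hle, hTσ, hT1⟩
    have h1 : T * m ≤ N * x ^ 4 / σ ^ 2 := by
      by_contra hcon
      push Not at hcon
      have h00 := t_low (e := e) (P0 := P0) q h hc hU hcon he0 hex
        (hlowa _ _ (by
          have : x * 1 ≤ x * σ ^ 40 := mul_le_mul_of_nonneg_left (one_le_pow₀ q.σ1) hx.le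
          linarith) le_rfl) hP
      exact lside0 q hN rfl hNx h hc hU hCL hL (hsΛ.trans hle) (hsC.trans hle) h00
    refine h1.trans ?_
    rw [mul_one_div]
    refine div_le_div_of_nonneg_right ?_ hσs2.le
    generalize N * x ^ 4 = G at hG0 ⊢
    generalize s₀ ^ 20 = u at hs20 ⊢
    generalize s₀ ^ 2 = v at hs2 ⊢
    have : 0 ≤ 4 ^ 7 * M * u * v * G := by positivity
    linarith
  · have hσ1 : 1 ≤ σ := by
      rw [hσ]
      exact Real.one_le_rpow ((one_le_div hx2).2 hT0) (by norm_num)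
    have hTs' : T ≤ x ^ 2 * s₀ ^ 2000 := by
      rw [hTσ]
      exact mul_le_mul_of_nonneg_left (pow_le_pow_left₀ hσ0.le hge _) hx2.le
    have h1 := t_crude (G := N * x ^ 4) (σ := s₀) (e := e) (P0 := P0) h hG0 hx hM hU
      (by linarith) hm0 hex hT0 hT1 hTs' (hlowa _ _ (by linarith) (by linarith)) hP
    refine h1.trans ?_
    have h2 : σ ^ 2 ≤ s₀ ^ 2 := pow_le_pow_left₀ hσ0.le hge 2
    rw [mul_one_div, le_div_iff₀ hσs2]
    clear h1 hTs' hTσ hσ2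
    generalize N * x ^ 4 = G at hG0 ⊢
    generalize s₀ ^ 20 = u at hs20 ⊢
    generalize s₀ ^ 2 = v at hs2 h2 ⊢
    have h3 : 4 ^ 7 * M * u * G * σ ^ 2 ≤ 4 ^ 7 * M * u * G * v :=
      mul_le_mul_of_nonneg_left h2 (by positivity)
    linarith

end Vale.Agent.P146.H97
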